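import Vale.Agent.P042.H945.State9
import Vale.Agent.P042.H305.Cons
set_option autoImplicit false

/-!
P042 [D], power regime, part 1: the cell inequality for a functional with squarefree moduli, and the
density bound for squarefree moduli.
-/

namespace Vale.Agent.P042.H362

open Finset Vale.Agent.P042.H599 Vale.Agent.P042.H945

section res

variable {x y : ℕ → ℝ} {M : ℕ}

/-- for a law in one class mod `q`, the classes mod `q * r` are the classes mod `r` -/
theorem cm_mul_eq {q r w : ℕ} (hqr : Nat.Coprime q r) (hy : ∀ n, y n ≠ 0 → n % q = w) {n : ℕ}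
    (hn : n % q = w) : cm y 1 M (q * r) (n % (q * r)) = cm y 1 M r (n % r) := by
  unfold cm
  refine Finset.sum_congr rfl fun i _ => ?_
  by_cases h0 : y (1 + i) = 0
  · rw [h0]; simp
  · have h1 : (1 + i) % (q * r) = n % (q * r) ↔ (1 + i) % r = n % r := by
      constructor
      · intro h
        have h2 : (1 + i) % (q * r) % r = n % (q * r) % r := by rw [h]
        rwa [Nat.mod_mod_of_dvd _ (dvd_mul_left r q), Nat.mod_mod_of_dvd _ (dvd_mul_left r q)] at h2
      · intro h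
        exact (Nat.modEq_and_modEq_iff_modEq_mul hqr).1 ⟨(hy _ h0).trans hn.symm, h⟩
    simp only [h1]

theorem le_cm1 (hy : Law y 1 M) (m : ℕ) {i : ℕ} (hi : i < M) :
    y (1 + i) ≤ cm y 1 M m ((1 + i) % m) := by
  have h := le_cm hy m (n := 1 + i) (by omega) (by omega)
  exact h

theorem klu_SM {m : ℕ} (hm : 0 < m) :
    klu y 1 M m = SM M (fun n => y n * Real.log (m * cm y 1 M m (n % m))) := by
  rw [← cm_SM hm (fun a => Real.log (m * cm y 1 M m a))]
  rfl

/-- the entropies of a law in one class mod `q` -/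
theorem klu_class {q r w : ℕ} (hq : 0 < q) (hr : 0 < r) (hqr : Nat.Coprime q r) (hlaw : Law y 1 M)
    (hy : ∀ n, y n ≠ 0 → n % q = w) : klu y 1 M (q * r) = klu y 1 M r + Real.log q := by
  have hq' : (0 : ℝ) < q := by exact_mod_cast hq
  have hr' : (0 : ℝ) < r := by exact_mod_cast hr
  have h3 : Real.log q = SM M (fun n => y n * Real.log q) := by
    rw [SM_const_mul, law_one hlaw, one_mul]
  rw [klu_SM (Nat.mul_pos hq hr), klu_SM hr, h3, ← SM_add]
  refine SM_congr fun i hi => ?_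
  by_cases h0 : y (1 + i) = 0
  · simp [h0]
  · have h1 := cm_mul_eq (M := M) hqr hy (hy _ h0)
    have h2 : 0 < cm y 1 M r ((1 + i) % r) :=
      lt_of_lt_of_le (lt_of_le_of_ne (hlaw.nonneg i hi) (Ne.symm h0)) (le_cm1 hlaw r hi)
    rw [h1]
    push_cast
    rw [mul_assoc, Real.log_mul hq'.ne' (by positivity)]
    ring

theorem cm_refine (h : Law y 1 M) {q m : ℕ} (hq : 0 < q) (hm : 0 < m) (hqm : q ∣ m) {b : ℕ}
    (hb : b < q) : cm y 1 M q b = ∑ c ∈ range m with c % q = b, cm y 1 M m c := by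
  have h1 := sum_cm_mod h hm hqm hq (fun a => if a = b then (1 : ℝ) else 0)
  rw [Finset.sum_filter]
  have h2 : ∑ a ∈ range q, cm y 1 M q a * (if a = b then (1 : ℝ) else 0) = cm y 1 M q b := by
    rw [Finset.sum_eq_single b]
    · simp
    · intro a _ hab; simp [hab]
    · intro h3; exact absurd (mem_range.2 hb) h3
  rw [← h2, ← h1]
  refine Finset.sum_congr rfl fun c _ => ?_
  split_ifs <;> simp

/-- data processing between moduli -/
theorem klc_mono (hy : Law y 1 M) (hx : Law x 1 M) (hac : AC y x M) {q m : ℕ} (hq : 0 < q)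
    (hm : 0 < m) (hqm : q ∣ m) : klc y x M q ≤ klc y x M m := by
  unfold klc
  have h1 : ∀ b ∈ range q,
      cm y 1 M q b * (Real.log (cm y 1 M q b) - Real.log (cm x 1 M q b)) ≤
        ∑ c ∈ range m with c % q = b,
          cm y 1 M m c * (Real.log (cm y 1 M m c) - Real.log (cm x 1 M m c)) := by
    intro b hb
    have hb' := mem_range.1 hb
    rw [cm_refine hy hq hm hqm hb', cm_refine hx hq hm hqm hb']
    exact log_sum _ (fun c => cm y 1 M m c) (fun c => cm x 1 M m c)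
      (fun c _ => cm_nonneg hy.nonneg _ _) (fun c _ => cm_nonneg hx.nonneg _ _)
      (fun c _ => cm_AC hx hac)
  refine (Finset.sum_le_sum h1).trans (le_of_eq ?_)
  exact Finset.sum_fiberwise_of_maps_to (fun c _ => mem_range.2 (Nat.mod_lt _ hq)) _

/-- the entropy of one class -/
theorem klc_class (hy : Law y 1 M) {q w : ℕ} (hw : w < q) (hs : ∀ n, y n ≠ 0 → n % q = w) :
    klc y x M q = -Real.log (cm x 1 M q w) := by
  have h1 : ∀ b, b ≠ w → cm y 1 M q b = 0 := by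
    intro b hb
    unfold cm
    refine Finset.sum_eq_zero fun i _ => ?_
    by_cases h0 : y (1 + i) = 0
    · simp [h0]
    · rw [if_neg]
      rw [hs _ h0]
      exact fun h => hb h.symm
  have h2 : cm y 1 M q w = 1 := by
    rw [← hy.sum]
    unfold cm
    refine Finset.sum_congr rfl fun i _ => ?_
    by_cases h0 : y (1 + i) = 0
    · simp [h0]
    · rw [if_pos (hs _ h0)]
  unfold klc
  rw [Finset.sum_eq_single w]
  · rw [h2, Real.log_one]; ring
  · intro b _ hb; rw [h1 b hb, zero_mul]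
  · intro h3; exact absurd (mem_range.2 hw) h3

theorem SM_lc (hx : Law x 1 M) (hac : AC y x M) {m : ℕ} (hm : 0 < m) :
    SM M (fun n => y n * lc x M m n) = klu y 1 M m - klc y x M m := by
  have h1 := klu_eq2 hx hac hm
  have h2 : SM M (fun n => y n * lc x M m n) =
      SM M (fun n => y n * Real.log (m * cm x 1 M m (n % m))) := rfl
  rw [h2]
  linarith

/-- **the correction term of one modulus** -/
theorem sck (hx : Law x 1 M) (hy : Law y 1 M) (hac : AC y x M) {q r w : ℕ} (hq : 0 < q)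
    (hr : 0 < r) (hqr : Nat.Coprime q r) (hw : w < q) (hs : ∀ n, y n ≠ 0 → n % q = w) :
    SM M (fun n => y n * (lc x M (q * r) n - lc x M r n)) ≤
      klc y x M r + Real.log (q * cm x 1 M q w) := by
  have hq' : (0 : ℝ) < q := by exact_mod_cast hq
  have hqr0 : 0 < q * r := Nat.mul_pos hq hr
  have h1 : SM M (fun n => y n * (lc x M (q * r) n - lc x M r n)) =
      SM M (fun n => y n * lc x M (q * r) n) - SM M (fun n => y n * lc x M r n) := by
    rw [← SM_sub]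
    exact SM_congr fun i _ => by ring
  rw [h1, SM_lc hx hac hqr0, SM_lc hx hac hr, klu_class hq hr hqr hy hs]
  have h2 := klc_mono hy hx hac hq hqr0 (dvd_mul_right q r)
  rw [klc_class hy hw hs] at h2
  have h3 : 0 < cm x 1 M q w := by
    obtain ⟨i, hi, h0⟩ : ∃ i, i < M ∧ y (1 + i) ≠ 0 := by
      by_contra hcon
      push Not at hcon
      have h4 : ∑ i ∈ range M, y (1 + i) = 0 :=
        Finset.sum_eq_zero fun i hi => hcon i (mem_range.1 hi)
      rw [hy.sum] at h4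
      exact one_ne_zero h4
    have h5 : x (1 + i) ≠ 0 := fun h => h0 (hac i hi h)
    have h6 := le_cm1 hx q hi
    rw [hs _ h0] at h6
    exact lt_of_lt_of_le (lt_of_le_of_ne (hx.nonneg i hi) (Ne.symm h5)) h6
  rw [Real.log_mul hq'.ne' h3.ne']
  linarith

end res

/-! ### functionals with squarefree moduli -/

variable {ι : Type} {Q : Par ι} {N d M : ℕ} {A0 : Finset ℤ} {a : ℤ} {x y : ℕ → ℝ} {L : ℝ}

/-- squarefree moduli with primes in `Q.W` -/
structure SqF (Q : Par ι) : Prop where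
  sq : ∀ i ∈ Q.I, Squarefree (Q.m i)
  pr : ∀ p ∈ Q.W, p.Prime
  sub : ∀ i ∈ Q.I, ∀ p, p.Prime → p ∣ Q.m i → p ∈ Q.W

theorem coprime_div {m D : ℕ} (hm : Squarefree m) (_hD : 0 < D) :
    Nat.Coprime (m / Nat.gcd m D) D ∧ Nat.Coprime (Nat.gcd m D) (m / Nat.gcd m D) ∧
      Nat.gcd m D * (m / Nat.gcd m D) = m := by
  have hg : Nat.gcd m D ∣ m := Nat.gcd_dvd_left _ _
  have h1 : Nat.gcd m D * (m / Nat.gcd m D) = m := Nat.mul_div_cancel' hg
  have h2 : Nat.Coprime (Nat.gcd m D) (m / Nat.gcd m D) :=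
    Nat.coprime_of_squarefree_mul (by rw [h1]; exact hm)
  refine ⟨?_, h2, h1⟩
  refine Nat.Coprime.symm ?_
  rw [Nat.coprime_iff_gcd_eq_one]
  by_contra h3
  obtain ⟨p, hp, hp1⟩ := Nat.exists_prime_and_dvd h3
  have h4 : p ∣ D := hp1.trans (Nat.gcd_dvd_left _ _)
  have h5 : p ∣ m / Nat.gcd m D := hp1.trans (Nat.gcd_dvd_right _ _)
  have h6 : p ∣ m := h5.trans ⟨Nat.gcd m D, by rw [mul_comm]; exact h1.symm⟩
  have h7 : p ∣ Nat.gcd m D := Nat.dvd_gcd h6 h4
  exact Nat.not_coprime_of_dvd_of_dvd hp.one_lt h7 h5 h2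

/-- the terms with a modulus prime to `D` -/
noncomputable def KF (Q : Par ι) (D M : ℕ) (y x : ℕ → ℝ) : ℝ :=
  ∑ i ∈ Q.I with Nat.Coprime (Q.m i) D, Q.c i * klc y x M (Q.m i)

/-- the cost of the other moduli -/
noncomputable def GF (Q : Par ι) (D M w : ℕ) (x : ℕ → ℝ) : ℝ :=
  ∑ i ∈ Q.I with ¬ Nat.Coprime (Q.m i) D, Q.c i *
    Real.log (Nat.gcd (Q.m i) D * cm x 1 M (Nat.gcd (Q.m i) D) (w % Nat.gcd (Q.m i) D))

/-- **the cell inequality for squarefree moduli** -/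
theorem cellF (hm : Mx Q N A0 d a M x L) (hsq : SqF Q) {D w u v : ℕ} (h : Comp Q M x D w u v y)
    {K : ℝ} (hK1 : 1 ≤ K) (hK : ∀ n, y n ≤ K * x n) {OB : ℝ} (hOB : ∀ S, Om Q d S ≤ OB) :
    (1 - Q.eta) * (Real.log M - Real.log ((v + 1 - u : ℕ) : ℝ)) + Real.log D -
        Q.eta * Real.log (Q.lam D) + KF Q D M y x + Omc Q d D M y ≤
    kl2 y x M + GF Q D M w x + Om Q d (sp x M) +
      Err Q M L OB K (Q.lam D / ((v + 1 - u : ℕ) : ℝ)) := by
  classical
  have hx := hm.mx.1.law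
  have hD : 0 < D := h.hD
  have h1 := master hm h hK1 hK hOB (fun i => Q.m i / Nat.gcd (Q.m i) D) (fun i hi => by
    have h2 := coprime_div (hsq.sq i hi) hD
    have h3 := hm.ok.hm i hi
    refine ⟨?_, ⟨Nat.gcd (Q.m i) D, ?_⟩, h2.1⟩
    · rcases Nat.eq_zero_or_pos (Q.m i / Nat.gcd (Q.m i) D) with h4 | h4
      · rw [h4, mul_zero] at h2
        omega
      · exact h4
    · rw [mul_comm]; exact h2.2.2.symm)
  have h2 : SC Q M x (fun i => Q.m i / Nat.gcd (Q.m i) D) y -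
      KC Q M x (fun i => Q.m i / Nat.gcd (Q.m i) D) y ≤ GF Q D M w x - KF Q D M y x := by
    have hS : SC Q M x (fun i => Q.m i / Nat.gcd (Q.m i) D) y -
        KC Q M x (fun i => Q.m i / Nat.gcd (Q.m i) D) y =
        ∑ i ∈ Q.I, (Q.c i * SM M (fun n => y n * (lc x M (Q.m i) n -
          lc x M (Q.m i / Nat.gcd (Q.m i) D) n)) -
          Q.c i * klc y x M (Q.m i / Nat.gcd (Q.m i) D)) := by
      unfold SC KC
      rw [← Finset.sum_sub_distrib]
    rw [hS, ← Finset.sum_filter_add_sum_filter_not Q.I (fun i => Nat.Coprime (Q.m i) D)]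
    have hA : ∑ i ∈ Q.I with ¬ Nat.Coprime (Q.m i) D, (Q.c i * SM M (fun n => y n *
        (lc x M (Q.m i) n - lc x M (Q.m i / Nat.gcd (Q.m i) D) n)) -
          Q.c i * klc y x M (Q.m i / Nat.gcd (Q.m i) D)) ≤ GF Q D M w x := by
      unfold GF
      refine Finset.sum_le_sum fun i hi => ?_
      obtain ⟨hi1, _⟩ := Finset.mem_filter.1 hi
      have h3 := coprime_div (hsq.sq i hi1) hD
      have h4 := hm.ok.hm i hi1
      have hg : 0 < Nat.gcd (Q.m i) D := Nat.gcd_pos_of_pos_left _ h4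
      have hr : 0 < Q.m i / Nat.gcd (Q.m i) D := by
        rcases Nat.eq_zero_or_pos (Q.m i / Nat.gcd (Q.m i) D) with h5 | h5
        · rw [h5, mul_zero] at h3
          omega
        · exact h5
      have h5 := sck (q := Nat.gcd (Q.m i) D) (r := Q.m i / Nat.gcd (Q.m i) D)
        (w := w % Nat.gcd (Q.m i) D) hx h.law h.ac hg hr h3.2.1 (Nat.mod_lt _ hg) (fun n hn => by
          have h6 := (h.supp n hn).2.2.2
          rw [← h6, Nat.mod_mod_of_dvd _ (Nat.gcd_dvd_right _ _)])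
      rw [h3.2.2] at h5
      have h6 := mul_le_mul_of_nonneg_left h5 (hm.ok.hc i hi1)
      linarith
    have hB : ∑ i ∈ Q.I with Nat.Coprime (Q.m i) D, (Q.c i * SM M (fun n => y n *
        (lc x M (Q.m i) n - lc x M (Q.m i / Nat.gcd (Q.m i) D) n)) -
          Q.c i * klc y x M (Q.m i / Nat.gcd (Q.m i) D)) = -KF Q D M y x := by
      unfold KF
      rw [← Finset.sum_neg_distrib]
      refine Finset.sum_congr rfl fun i hi => ?_
      obtain ⟨hi1, hi2⟩ := Finset.mem_filter.1 hi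
      have h3 : Nat.gcd (Q.m i) D = 1 := hi2
      simp only [h3, Nat.div_one, sub_self, mul_zero]
      have h4 : SM M (fun _ => (0 : ℝ)) = 0 := by simp [SM]
      rw [h4, mul_zero, zero_sub]
    linarith
  linarith

/-- the numbers of the density bound -/
structure DN (Q : Par ι) (d M : ℕ) (L OB Qm t2 : ℝ) (om1 al : ℕ → ℝ) : Prop where
  hOB : ∀ S, Om Q d S ≤ OB
  hom : ∀ p ∈ Q.W, ∀ S, Q.om p d S ≤ om1 p
  c4 : ∀ p ∈ Q.W, ∑ i ∈ Q.I with p ∣ Q.m i, Q.c i ≤ 3 / 8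
  hal : ∀ p ∈ Q.W, 2 * (Q.eta * Real.log (Q.lam p) + om1 p + t2) ≤ al p
  Qm1 : 1 ≤ Qm
  Qm4 : 4 * (Qm * Real.exp (-(Q.D0 / 4))) ≤ 1
  len : ∀ q : ℕ, 1 ≤ q → (q : ℝ) ≤ Qm → 2 * Q.Mm * Q.lam q ≤ M
  err : ∀ q : ℕ, 1 ≤ q → (q : ℝ) ≤ Qm →
    Err Q M L OB (4 * Qm) (Q.lam q / M) + 2 * (Qm * Real.exp (-(Q.D0 / 4))) ≤ t2

theorem log_lam_prod (hQ : Ok Q) (s : Finset ℕ) (hs : ∀ p ∈ s, 1 ≤ p) :
    1 ≤ ∏ p ∈ s, p ∧ Real.log (Q.lam (∏ p ∈ s, p)) = ∑ p ∈ s, Real.log (Q.lam p) := by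
  classical
  induction s using Finset.induction_on with
  | empty => simp [hQ.lam1]
  | insert p s hp ih =>
    obtain ⟨h1, h2⟩ := ih fun q hq => hs q (Finset.mem_insert_of_mem hq)
    have h3 := hs p (Finset.mem_insert_self _ _)
    rw [Finset.prod_insert hp, Finset.sum_insert hp, hQ.lamm p _ h3 h1]
    refine ⟨Nat.mul_pos h3 h1, ?_⟩
    push_cast
    rw [Real.log_mul, h2]
    · exact_mod_cast (hQ.lam0 p h3).ne'
    · exact_mod_cast (hQ.lam0 _ h1).ne'

theorem log_lam_sqf (hQ : Ok Q) {q : ℕ} (hq : Squarefree q) :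
    Real.log (Q.lam q) = ∑ p ∈ q.primeFactors, Real.log (Q.lam p) := by
  have h := (log_lam_prod hQ q.primeFactors fun p hp => (Nat.prime_of_mem_primeFactors hp).one_lt.le).2
  rwa [Nat.prod_primeFactors_of_squarefree hq] at h

variable {OB Qm t2 : ℝ} {om1 al : ℕ → ℝ}

theorem DN.pos (hm : Mx Q N A0 d a M x L) (h : DN Q d M L OB Qm t2 om1 al) :
    0 ≤ t2 ∧ (∀ p ∈ Q.W, 0 ≤ om1 p) ∧ (∀ p ∈ Q.W, 0 ≤ al p) := by
  have h0 : 0 ≤ t2 := by
    refine le_trans ?_ (h.err 1 le_rfl (by exact_mod_cast h.Qm1))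
    have h1 := H305.Err_nonneg (K := 4 * Qm) (r := (Q.lam 1 : ℝ) / M) (OB := OB) hm.ok
      hm.mx.1.law.pos hm.L0 (H305.OB_nonneg hm h.hOB) (by have := h.Qm1; linarith) (by positivity)
    have h2 := h.Qm1
    have h3 : 0 ≤ Qm * Real.exp (-(Q.D0 / 4)) := by positivity
    linarith
  have h1 : ∀ p ∈ Q.W, 0 ≤ om1 p := fun p hp =>
    (hm.ok.om0 p hp d ∅).trans (h.hom p hp ∅)
  refine ⟨h0, h1, fun p hp => le_trans ?_ (h.hal p hp)⟩
  have h2 := h1 p hp
  have h3 : 0 ≤ Real.log (Q.lam p) := Real.log_nonneg (by exact_mod_cast hm.ok.lam0 p (hm.ok.hW p hp))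
  have h4 := mul_nonneg hm.ok.eta0.le h3
  linarith

theorem pf_gcd {m q : ℕ} (hq : q ≠ 0) (hm : 0 < m) :
    (Nat.gcd m q).primeFactors = q.primeFactors.filter (fun p => p ∣ m) := by
  ext p
  rw [Finset.mem_filter, Nat.mem_primeFactors, Nat.mem_primeFactors]
  constructor
  · rintro ⟨h1, h2, _⟩
    exact ⟨⟨h1, h2.trans (Nat.gcd_dvd_right _ _), hq⟩, h2.trans (Nat.gcd_dvd_left _ _)⟩
  · rintro ⟨⟨h1, h2, _⟩, h3⟩
    exact ⟨h1, Nat.dvd_gcd h3 h2, (Nat.gcd_pos_of_pos_left _ hm).ne'⟩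

/-- the double sum over the moduli and the primes of `D` -/
theorem sum_gcd_le (hm : Mx Q N A0 d a M x L) (h : DN Q d M L OB Qm t2 om1 al) {D : ℕ}
    (s : Finset ℕ) (hs : s ⊆ Q.W) :
    ∑ i ∈ Q.I with ¬ Nat.Coprime (Q.m i) D, Q.c i * ∑ p ∈ s with p ∣ Q.m i, al p ≤
      3 / 8 * ∑ p ∈ s, al p := by
  obtain ⟨_, _, h1⟩ := h.pos hm
  have h2 : ∑ i ∈ Q.I with ¬ Nat.Coprime (Q.m i) D, Q.c i * ∑ p ∈ s with p ∣ Q.m i, al p ≤
      ∑ i ∈ Q.I, Q.c i * ∑ p ∈ s with p ∣ Q.m i, al p := by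
    refine Finset.sum_le_sum_of_subset_of_nonneg (Finset.filter_subset _ _) fun i hi _ => ?_
    exact mul_nonneg (hm.ok.hc i hi) (Finset.sum_nonneg fun p hp =>
      h1 p (hs (Finset.mem_filter.1 hp).1))
  refine h2.trans ?_
  have h3 : ∑ i ∈ Q.I, Q.c i * ∑ p ∈ s with p ∣ Q.m i, al p =
      ∑ p ∈ s, al p * ∑ i ∈ Q.I with p ∣ Q.m i, Q.c i := by
    simp only [Finset.sum_filter, Finset.mul_sum]
    rw [Finset.sum_comm]
    refine Finset.sum_congr rfl fun p _ => Finset.sum_congr rfl fun i _ => ?_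
    split_ifs <;> ring
  rw [h3, Finset.mul_sum]
  refine Finset.sum_le_sum fun p hp => ?_
  have h4 := mul_le_mul_of_nonneg_left (h.c4 p (hs hp)) (h1 p (hs hp))
  linarith

/-- the loss of the local terms -/
theorem om_loss (hm : Mx Q N A0 d a M x L) (hsq : SqF Q) (h : DN Q d M L OB Qm t2 om1 al)
    {D : ℕ} (hyx : ∀ n, y n ≠ 0 → x n ≠ 0) :
    Om Q d (sp x M) - Omc Q d D M y ≤ ∑ p ∈ Q.W with p ∣ D, om1 p := by
  classical
  unfold Om Omc
  rw [← Finset.sum_filter_add_sum_filter_not Q.W (fun p => Nat.Coprime p D)]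
  have h1 : ∑ p ∈ Q.W with Nat.Coprime p D, Q.om p d (rs (sp x M) p) ≤
      ∑ p ∈ Q.W with Nat.Coprime p D, Q.om p d (rs (sp y M) p) := by
    refine Finset.sum_le_sum fun p hp => om_anti hm.ok hm.mx.1.hd (Finset.mem_filter.1 hp).1 ?_
    intro n hn
    unfold sp at hn ⊢
    obtain ⟨h3, h4⟩ := Finset.mem_filter.1 hn
    exact Finset.mem_filter.2 ⟨h3, hyx n h4⟩
  have h2 : ∑ p ∈ Q.W with ¬ Nat.Coprime p D, Q.om p d (rs (sp x M) p) ≤
      ∑ p ∈ Q.W with p ∣ D, om1 p := by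
    have h3 : Q.W.filter (fun p => ¬ Nat.Coprime p D) = Q.W.filter (fun p => p ∣ D) := by
      refine Finset.filter_congr fun p hp => ?_
      rw [Nat.Prime.coprime_iff_not_dvd (hsq.pr p hp), not_not]
    rw [h3]
    exact Finset.sum_le_sum fun p hp => h.hom p (Finset.mem_filter.1 hp).1 _
  linarith

/-- **the density bound for squarefree moduli** -/
theorem dens (hm : Mx Q N A0 d a M x L) (hsq : SqF Q) (h : DN Q d M L OB Qm t2 om1 al) :
    ∀ q : ℕ, Squarefree q → (q : ℝ) ≤ Qm → (∀ p, p.Prime → p ∣ q → p ∈ Q.W) →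
      ∀ b, q * cm x 1 M q b ≤ Real.exp (∑ p ∈ q.primeFactors, al p) := by
  classical
  intro q
  induction q using Nat.strong_induction_on with
  | _ q ih =>
  intro hq hqm hqW b
  obtain ⟨ht2, hom0, hal0⟩ := h.pos hm
  have hx := hm.mx.1.law
  have hq0 : q ≠ 0 := hq.ne_zero
  have hq1 : 1 ≤ q := Nat.one_le_iff_ne_zero.2 hq0
  have hq' : (0 : ℝ) < q := by exact_mod_cast hq1
  have hsub : q.primeFactors ⊆ Q.W := fun p hp => by
    obtain ⟨h1, h2, _⟩ := Nat.mem_primeFactors.1 hp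
    exact hqW p h1 h2
  obtain ⟨B, hB⟩ : ∃ B, B = ∑ p ∈ q.primeFactors, al p := ⟨_, rfl⟩
  have hB0 : 0 ≤ B := by rw [hB]; exact Finset.sum_nonneg fun p hp => hal0 p (hsub hp)
  rw [← hB]
  rcases eq_or_ne q 1 with hq1' | hqne
  · have h1 : cm x 1 M q b ≤ 1 := by
      rw [← ms_class]
      exact ms_le_one hx _
    have h2 : (1 : ℝ) ≤ Real.exp B := Real.one_le_exp hB0
    rw [hq1'] at h1 ⊢
    push_cast
    linarith
  by_contra hcon
  rw [not_le] at hcon
  have hX0 : 0 < q * cm x 1 M q b := lt_trans (Real.exp_pos _) hcon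
  have hc0 : 0 < cm x 1 M q b := (mul_pos_iff_of_pos_left hq').1 hX0
  have hb : b < q := by
    by_contra h1
    have h2 : cm x 1 M q b = 0 := by
      unfold cm
      refine Finset.sum_eq_zero fun i _ => if_neg ?_
      have := Nat.mod_lt (1 + i) hq1
      omega
    rw [h2] at hc0
    exact lt_irrefl _ hc0
  obtain ⟨s, hs⟩ : ∃ s, s = Real.log (q * cm x 1 M q b) := ⟨_, rfl⟩
  have hsB : B < s := by
    rw [hs, Real.lt_log_iff_exp_lt hX0]
    exact hcon
  have hexpB : (1 : ℝ) ≤ Real.exp B := Real.one_le_exp hB0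
  have hX1 : 1 ≤ q * cm x 1 M q b := by linarith
  obtain ⟨e0, he0⟩ : ∃ e0, e0 = Real.exp (-(Q.D0 / 4)) := ⟨_, rfl⟩
  have he0p : 0 < e0 := by rw [he0]; exact Real.exp_pos _
  have hQe : 4 * (Qm * e0) ≤ 1 := by rw [he0]; exact h.Qm4
  have hqe : (q : ℝ) * e0 ≤ Qm * e0 := mul_le_mul_of_nonneg_right hqm he0p.le
  have hQ1 := h.Qm1
  have hMp : 0 < M := hx.pos
  have hM' : (0 : ℝ) < M := by exact_mod_cast hMp
  -- the event
  obtain ⟨S, hS⟩ : ∃ S : ℕ → Prop, S = fun n =>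
    H305.Gd Q M x n ∧ 1 ≤ n ∧ n ≤ M ∧ n % q = b := ⟨_, rfl⟩
  obtain ⟨m, hmS⟩ : ∃ m, m = ms x M S := ⟨_, rfl⟩
  have hmass : cm x 1 M q b ≤ m + e0 := by
    have h1 : ms x M (fun n => (1 ≤ n ∧ n ≤ M) ∧ n % q = b) = cm x 1 M q b := by
      unfold ms cm SM
      refine Finset.sum_congr rfl fun i hi => ?_
      have h2 : 1 ≤ 1 + i ∧ 1 + i ≤ M := ⟨by omega, by have := mem_range.1 hi; omega⟩
      by_cases h3 : (1 + i) % q = b <;> simp [h3, h2.2]
    rw [← h1, hmS, he0]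
    refine (H305.ms_or hx (T := S) (U := fun n => ¬ H305.Gd Q M x n) fun n hn => ?_).trans
      (add_le_add le_rfl (H305.bad_small hm))
    by_cases h3 : H305.Gd Q M x n
    · left
      rw [hS]
      exact ⟨h3, hn.1.1, hn.1.2, hn.2⟩
    · exact Or.inr h3
  have hqm1 : (q * cm x 1 M q b) * (1 - Qm * e0) ≤ q * m := by
    have h1 : q * cm x 1 M q b ≤ q * m + q * e0 := by
      rw [← mul_add]; exact mul_le_mul_of_nonneg_left hmass hq'.le
    have h2 : 1 * (Qm * e0) ≤ (q * cm x 1 M q b) * (Qm * e0) :=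
      mul_le_mul_of_nonneg_right hX1 (by positivity)
    nlinarith
  have hqm2 : 3 / 4 ≤ q * m := by nlinarith
  have hm0 : 0 < m := by
    by_contra h1
    have : q * m ≤ 0 := mul_nonpos_of_nonneg_of_nonpos hq'.le (not_lt.1 h1)
    linarith
  have hm1 : m ≤ 1 := by rw [hmS]; exact ms_le_one hx S
  have hV : M + 1 - 1 = M := by omega
  have hcomp : Comp Q M x q b 1 M (rst x M S) := by
    refine H305.comp_rst (Q := Q) hx hq1 le_rfl le_rfl ?_ (hm.ok.lam0 q hq1)
      (le_trans (by norm_num) hm.ok.Mm1) (fun n hn => ?_) ?_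
    · rw [hV]; exact h.len q hq1 hqm
    · rw [hS] at hn
      exact ⟨hn.1, hn.2.1, hn.2.2.1, hn.2.2.2⟩
    · rw [hV, ← hmS, ← he0]
      have h1 : e0 ≤ q * m := by nlinarith
      calc e0 * M ≤ (q * m) * M := mul_le_mul_of_nonneg_right h1 hM'.le
        _ = q * (m * M) := by ring
  have hylaw := rst_law hx (S := S) (by rw [← hmS]; exact hm0)
  have hcell := cellF hm hsq hcomp (K := 1 / m) (by rw [le_div_iff₀ hm0]; linarith) (fun n => by
      by_cases h1 : S n
      · rw [H305.rst_of h1, ← hmS, div_mul_eq_mul_div, one_mul]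
      · rw [H305.rst_not h1]
        have := law_nonneg hm.mx.1 n
        positivity) h.hOB
  rw [hV, H305.rst_kl2 hx (by rw [← hmS]; exact hm0), ← hmS] at hcell
  have hKF : 0 ≤ KF Q q M (rst x M S) x := by
    unfold KF
    exact Finset.sum_nonneg fun i hi => mul_nonneg (hm.ok.hc i (Finset.mem_filter.1 hi).1)
      (klc_nonneg hylaw hx hcomp.ac (hm.ok.hm i (Finset.mem_filter.1 hi).1))
  have hOm := om_loss (y := rst x M S) hm hsq h (D := q) (fun n hn => (hcomp.supp n hn).1)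
  have hfW : Q.W.filter (fun p => p ∣ q) = q.primeFactors := by
    ext p
    rw [Finset.mem_filter, Nat.mem_primeFactors]
    constructor
    · rintro ⟨h1, h2⟩
      exact ⟨hsq.pr p h1, h2, hq0⟩
    · rintro ⟨h1, h2, _⟩
      exact ⟨hqW p h1 h2, h2⟩
  rw [hfW] at hOm
  -- the bound of the correction
  obtain ⟨β, hβ⟩ : ∃ β, β = ∑ i ∈ Q.I with q ∣ Q.m i, Q.c i := ⟨_, rfl⟩
  have hβ0 : 0 ≤ β := by
    rw [hβ]
    exact Finset.sum_nonneg fun i hi => hm.ok.hc i (Finset.mem_filter.1 hi).1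
  have hβ1 : β ≤ 3 / 8 := by
    obtain ⟨p, hp, hpq⟩ := Nat.exists_prime_and_dvd hqne
    rw [hβ]
    refine le_trans (Finset.sum_le_sum_of_subset_of_nonneg (fun i hi => ?_) fun i hi _ =>
      hm.ok.hc i (Finset.mem_filter.1 hi).1) (h.c4 p (hqW p hp hpq))
    obtain ⟨h1, h2⟩ := Finset.mem_filter.1 hi
    exact Finset.mem_filter.2 ⟨h1, hpq.trans h2⟩
  have hGF : GF Q q M b x ≤ 3 / 8 * B + β * (s - B) := by
    have h1 : ∀ i ∈ Q.I.filter (fun i => ¬ Nat.Coprime (Q.m i) q),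
        Q.c i * Real.log (Nat.gcd (Q.m i) q * cm x 1 M (Nat.gcd (Q.m i) q)
          (b % Nat.gcd (Q.m i) q)) ≤
        Q.c i * ∑ p ∈ q.primeFactors with p ∣ Q.m i, al p +
          (if q ∣ Q.m i then Q.c i * (s - B) else 0) := by
      intro i hi
      obtain ⟨hi1, hi2⟩ := Finset.mem_filter.1 hi
      have hci := hm.ok.hc i hi1
      have hmi := hm.ok.hm i hi1
      rw [← pf_gcd hq0 hmi]
      by_cases h2 : q ∣ Q.m i
      · have h3 : Nat.gcd (Q.m i) q = q := Nat.gcd_eq_right h2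
        rw [if_pos h2, h3, Nat.mod_eq_of_lt hb, ← hs, ← hB]
        linarith
      · rw [if_neg h2, add_zero]
        refine mul_le_mul_of_nonneg_left ?_ hci
        have hgq : Nat.gcd (Q.m i) q ∣ q := Nat.gcd_dvd_right _ _
        have hglt : Nat.gcd (Q.m i) q < q := by
          refine lt_of_le_of_ne (Nat.le_of_dvd hq1 hgq) fun h4 => h2 ?_
          rw [← h4]; exact Nat.gcd_dvd_left _ _
        have h5 := ih _ hglt (hq.squarefree_of_dvd hgq)
          (le_trans (by exact_mod_cast hglt.le) hqm)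
          (fun p hp hpg => hqW p hp (hpg.trans hgq)) (b % Nat.gcd (Q.m i) q)
        have h6 : 0 ≤ ∑ p ∈ (Nat.gcd (Q.m i) q).primeFactors, al p := by
          rw [pf_gcd hq0 hmi]
          exact Finset.sum_nonneg fun p hp => hal0 p (hsub (Finset.mem_filter.1 hp).1)
        have h7 : 0 ≤ (Nat.gcd (Q.m i) q : ℝ) * cm x 1 M (Nat.gcd (Q.m i) q)
            (b % Nat.gcd (Q.m i) q) := mul_nonneg (Nat.cast_nonneg _) (cm_nonneg hx.nonneg _ _)
        rcases h7.eq_or_lt with h8 | h8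
        · rw [← h8, Real.log_zero]; exact h6
        · rw [Real.log_le_iff_le_exp h8]; exact h5
    have h2 := Finset.sum_le_sum h1
    rw [Finset.sum_add_distrib] at h2
    have h3 := sum_gcd_le hm h (D := q) q.primeFactors hsub
    rw [← hB] at h3
    have h4 : ∑ i ∈ Q.I with ¬ Nat.Coprime (Q.m i) q,
        (if q ∣ Q.m i then Q.c i * (s - B) else 0) ≤ β * (s - B) := by
      rw [hβ, Finset.sum_mul, ← Finset.sum_filter]
      refine Finset.sum_le_sum_of_subset_of_nonneg (fun i hi => ?_) fun i hi _ =>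
        mul_nonneg (hm.ok.hc i (Finset.mem_filter.1 hi).1) (by linarith)
      obtain ⟨h5, h6⟩ := Finset.mem_filter.1 hi
      exact Finset.mem_filter.2 ⟨(Finset.mem_filter.1 h5).1, h6⟩
    unfold GF
    linarith
  -- the logarithm
  have hlog : s - 2 * (Qm * e0) ≤ Real.log q + Real.log m := by
    rw [← Real.log_mul hq'.ne' hm0.ne']
    have h1 : (0 : ℝ) < 1 - Qm * e0 := by linarith
    have h2 := Real.log_le_log (mul_pos hX0 h1) hqm1
    rw [Real.log_mul hX0.ne' h1.ne', ← hs] at h2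
    have h3 := Real.one_sub_inv_le_log_of_pos h1
    have h4 : (1 - Qm * e0)⁻¹ ≤ 1 + 2 * (Qm * e0) := by
      rw [inv_le_iff_one_le_mul₀ h1]
      have : 0 ≤ Qm * e0 := by positivity
      nlinarith
    linarith
  have hErr : Err Q M L OB (1 / m) (Q.lam q / M) + 2 * (Qm * e0) ≤ t2 := by
    refine le_trans ?_ (h.err q hq1 hqm)
    rw [he0]
    refine add_le_add (Err_mono hm.ok L OB (by positivity) ?_ le_rfl) le_rfl
    rw [div_le_iff₀ hm0]
    have h1 : q * m ≤ Qm * m := mul_le_mul_of_nonneg_right hqm hm0.le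
    linarith
  have hA : Q.eta * Real.log (Q.lam q) + ∑ p ∈ q.primeFactors, om1 p + t2 ≤ B / 2 := by
    rw [log_lam_sqf hm.ok hq, Finset.mul_sum, ← Finset.sum_add_distrib]
    obtain ⟨p0, hp0, hpq0⟩ := Nat.exists_prime_and_dvd hqne
    have hcard : (1 : ℝ) ≤ (q.primeFactors.card : ℝ) := by
      have : 0 < q.primeFactors.card := Finset.card_pos.2 ⟨p0, Nat.mem_primeFactors.2 ⟨hp0, hpq0, hq0⟩⟩
      exact_mod_cast this
    have h1 : ∑ p ∈ q.primeFactors, (Q.eta * Real.log (Q.lam p) + om1 p) + q.primeFactors.card * t2 =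
        ∑ p ∈ q.primeFactors, (Q.eta * Real.log (Q.lam p) + om1 p + t2) := by
      simp only [Finset.sum_add_distrib, Finset.sum_const, nsmul_eq_mul]
    have h2 : ∑ p ∈ q.primeFactors, (Q.eta * Real.log (Q.lam p) + om1 p + t2) ≤ B / 2 := by
      rw [hB, Finset.sum_div]
      refine Finset.sum_le_sum fun p hp => ?_
      have := h.hal p (hsub hp)
      linarith
    nlinarith
  have hfin : s ≤ B / 2 + (3 / 8 * B + β * (s - B)) := by linarith
  have hβs : β * (s - B) ≤ 3 / 8 * (s - B) := mul_le_mul_of_nonneg_right hβ1 (by linarith)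
  linarith

end Vale.Agent.P042.H362
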