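import Vale.Agent.P042.H362.CoreF
import Vale.Agent.P042.H103.C4
import Vale.Agent.P042.H972.PwNum
import Vale.Agent.P042.H383.CoX
set_option autoImplicit false

/-!
P042 [D], power regime, part 3: the exported state `StF` (literal list of fields), version 2:
large cells (`ql`), split cost (`be`, `ga`), parameters depending on `(k, R, κ)`.
-/

namespace Vale.Agent.P042.H362

open Polynomial Finset Vale.Agent.P042.H599 Vale.Agent.P042.H945 Vale.Agent.P042.H739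
  Vale.Agent.P042.H972 Vale.Agent.P042.H383 Vale.Agent.P042.H74 Vale.Agent.P042.SS

/-- parameters of the power regime: primes of `(K0, P^C1]`, entropy and atom weights `p^(-g)`,
rewards `p^(-gr)`, caps `p^gc`, density of the classes of `p` at most `p^b`, cost `be` per unit of
`log D` and `p^(-ga)` for a prime `p` of `D`; `D0 = kp * P` -/
structure FP where
  C1 : ℝ
  K0 : ℕ
  g : ℝ
  gr : ℝ
  gc : ℝ
  b : ℝ
  be : ℝ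
  ga : ℝ
  kp : ℝ

open Classical in
/-- the primes of the state -/
noncomputable def WF (q : FP) (k R : ℕ) (P : ℝ) : Finset ℕ :=
  (range (⌊P ^ q.C1⌋₊ + 1)).filter (fun p => p.Prime ∧ max (max q.K0 R) (2 * k) < p)

/-- the cost of the modulus `D` and of a window of length `V` -/
noncomputable def costF (W : Finset ℕ) (q : FP) (D M : ℕ) (V : ℝ) : ℝ :=
  q.be * (Real.log D + (Real.log M - Real.log V) + 1) + ∑ p ∈ W with p ∣ D, (p : ℝ) ^ (-q.ga)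

/-- **the master inequality** (primes and families), cells of modulus `D ≤ exp Dm`: for all laws
`y` of bounded density relative to a cell of `mu` -/
def MF {κ' : Type} (W : Finset ℕ) (q : FP) (fm : H599.Fam κ') (M : ℕ) (mu : ℕ → ℝ) (Dm : ℝ) :
    Prop :=
  ∀ (D w u v : ℕ) (y : ℕ → ℝ), 1 ≤ D → Real.log D ≤ Dm → 1 ≤ u → v ≤ M →
    (M : ℝ) ≤ Real.exp Dm * ((v + 1 - u : ℕ) : ℝ) → 0 < ms mu M (cl D w u v) →
    Real.exp (-Dm) * ((v + 1 - u : ℕ) : ℝ) ≤ D * ms mu M (cl D w u v) * M →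
    Law y 1 M → (∀ n, 0 ≤ y n) → (∀ n, y n ≤ Real.exp Dm * rst mu M (cl D w u v) n) →
    Real.log (D * ms mu M (cl D w u v) * M / ((v + 1 - u : ℕ) : ℝ)) +
      ∑ p ∈ W with Nat.Coprime p D, (p : ℝ) ^ (-q.g) * klc y mu M p +
      ∑ i ∈ fI fm with Nat.Coprime (∏ p ∈ i.2, p) D, fc fm i * klc y mu M (∏ p ∈ i.2, p) ≤
    kl2 y (rst mu M (cl D w u v)) M + costF W q D M ((v + 1 - u : ℕ) : ℝ)

/-- **the master inequality for large cells** (primes only), `log D ≤ Lq` -/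
def QL (W : Finset ℕ) (q : FP) (M : ℕ) (mu : ℕ → ℝ) (Dm Lq : ℝ) : Prop :=
  ∀ (D w u v : ℕ) (y : ℕ → ℝ), 1 ≤ D → Real.log D ≤ Lq → 1 ≤ u → v ≤ M →
    (M : ℝ) ≤ Real.exp Dm * ((v + 1 - u : ℕ) : ℝ) → 0 < ms mu M (cl D w u v) →
    Real.exp (-Dm) * ((v + 1 - u : ℕ) : ℝ) ≤ D * ms mu M (cl D w u v) * M →
    Law y 1 M → (∀ n, 0 ≤ y n) → (∀ n, y n ≤ Real.exp Dm * rst mu M (cl D w u v) n) →
    Real.log (D * ms mu M (cl D w u v) * M / ((v + 1 - u : ℕ) : ℝ)) +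
      ∑ p ∈ W with Nat.Coprime p D, (p : ℝ) ^ (-q.g) * klc y mu M p ≤
    kl2 y (rst mu M (cl D w u v)) M + costF W q D M ((v + 1 - u : ℕ) : ℝ)

/-- the one-prime fields -/
structure AtF (W : Finset ℕ) (q : FP) (f : ℤ[X]) (M : ℕ) (mu : ℕ → ℝ) (Dm : ℝ) : Prop where
  law : Law mu 1 M
  nn : ∀ n, 0 ≤ mu n
  out : ∀ n, mu n ≠ 0 → 1 ≤ n ∧ n ≤ M
  cap : ∀ n, M * mu n ≤ 2 * Real.exp (32 * Dm)
  atom : ∀ p ∈ W, ∀ a, cm mu 1 M p a = 0 ∨ (p : ℝ) ^ (-q.g) / (4 * p) ≤ cm mu 1 M p a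
  sup : ∀ p ∈ W, ∀ a, p * cm mu 1 M p a ≤ (p : ℝ) ^ q.b
  row : ∀ p ∈ W, ∀ a, a < p → cm mu 1 M p a ≠ 0 →
    (p : ℝ) ^ (-q.gr) / 5 ≤ ∑ c ∈ range p, cm mu 1 M p c * (1 + kN f p ((a : ℤ) - c)) ∧
      (p : ℝ) ^ (-q.gr) / 5 ≤ ∑ c ∈ range p, cm mu 1 M p c * (1 + kN f p ((c : ℤ) - a))

/-- **the state of the power regime** -/
structure StF1 {κ' : Type} (W : Finset ℕ) (q : FP) (fm : H599.Fam κ') (f : ℤ[X]) (M : ℕ)
    (mu : ℕ → ℝ) (Dm Lq : ℝ) : Prop extends AtF W q f M mu Dm where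
  mf : MF W q fm M mu Dm
  ql : QL W q M mu Dm Lq

/-- the field list in the shape of `H972.state6_fix`; `Dm = kp P / 64`, `Lq = P / (16 k)` -/
def FF6 {κ' : Type} (par : ℕ → ℕ → ℝ → FP) (fam : ℕ → ℕ → ℝ → ℝ → H599.Fam κ') (k R : ℕ)
    (f : ℤ[X]) (κ P : ℝ) (M : ℕ) (mu : ℕ → ℝ) : Prop :=
  StF1 (WF (par k R κ) k R P) (par k R κ) (fam k R κ P) f M mu ((par k R κ).kp * P / 64)
    (P / (16 * k))

/-- **the state predicate of the power regime** -/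
def StF {κ' : Type} (par : ℕ → ℕ → ℝ → FP) (fam : ℕ → ℕ → ℝ → ℝ → H599.Fam κ') : StTy :=
  StOf (FF6 par fam)

/-- conditions on the parameters for the degree `k` and the quality `κ` -/
structure FPOk (q : FP) (k : ℕ) (κ : ℝ) : Prop where
  C11 : 1 ≤ q.C1
  g0 : 0 < q.g
  g1 : q.g ≤ 1
  gc0 : 0 < q.gc
  cr : q.g + q.gc ≤ q.gr
  gr1 : q.gr ≤ 1
  b0 : 0 < q.b
  b1 : q.b ≤ 1
  be0 : 0 < q.be
  beb : q.be ≤ q.b / 2
  ga0 : 0 < q.ga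
  ga1 : q.ga ≤ 1
  kp0 : 0 < q.kp
  kpκ : q.kp ≤ κ
  kpk : q.kp ≤ 1 / k
  kpg : q.kp ≤ q.g / (2560 * q.C1)
  K1 : ∀ p : ℕ, q.K0 < p → (p : ℝ) ^ (-q.g) ≤ 1 / 8
  K2 : ∀ p : ℕ, q.K0 < p →
    (p : ℝ) ^ (-q.g) + (p : ℝ) ^ (-q.gr) * (p : ℝ) ^ q.gc ≤ (p : ℝ) ^ (-q.ga) / 4
  K3 : ∀ p : ℕ, q.K0 < p → 2 ≤ (p : ℝ) ^ (q.b / 4)
  K4 : ∀ p : ℕ, q.K0 < p → 32 * (k : ℝ) ^ 2 * (p : ℝ) ^ q.b + 1 ≤ (p : ℝ) ^ q.gc
  K5 : ∀ p : ℕ, q.K0 < p → 8 * (p : ℝ) ^ q.b ≤ (p : ℝ) ^ (-q.gr) * p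

/-- conditions on the families, for large `P` -/
structure FamP {κ' : Type} (q : FP) (k R : ℕ) (fm : ℝ → H599.Fam κ') : Prop where
  ev : ∃ A P0 : ℝ, 1 ≤ A ∧ ∀ P : ℝ, P0 ≤ P → FamOk (fm P) (MmP P) ∧
    (∀ i ∈ (fm P).F, (fm P).W i ⊆ WF q k R P) ∧ (∀ i ∈ (fm P).F, ((fm P).K i : ℝ) ≤ P ^ A) ∧
    (∀ i ∈ (fm P).F, Real.log ((fm P).B i) ≤ q.kp * P / 16)

/-- the functional of the power regime -/
noncomputable def QPF {κ' : Type} (q : FP) (k R : ℕ) (P : ℝ) (fm : H599.Fam κ') (Hh : ℕ → ℤ[X])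
    (lam : ℕ → ℕ) : Par (ℕ ⊕ (Σ _ : κ', Finset ℕ)) :=
  QP fm (WF q k R P) q.g q.gr q.gc Hh lam (q.be / (4 * k)) (q.kp * P)
    (2 * P ^ (1 - q.g / 5)) (MmP P)

/-- the data at one maximiser -/
structure HypF {κ' : Type} (q : FP) (k R : ℕ) (κ c P : ℝ) (fm : H599.Fam κ') (h : ℤ[X])
    (lam : ℕ → ℕ) (r : ℕ → ℤ) (Hh : ℕ → ℤ[X]) (N : ℕ) (A0 : Finset ℤ) (d : ℕ) (a : ℤ) (M : ℕ)
    (x : ℕ → ℝ) : Prop where
  aux : AuxData h lam r Hh R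
  deg : h.natDegree = k
  k2 : 2 ≤ k
  lead : 0 < h.leadingCoeff
  mx : Mx (QPF q k R P fm Hh lam) N A0 d a M x (c * P)
  lo : (1 - κ) * P ≤ Real.log M
  hi : Real.log M ≤ P

/-- block 1 (one-prime fields) -/
def AtEv : Prop := ∀ {κ' : Type} (q : FP) (k R : ℕ) (κ c : ℝ) (fm : ℝ → H599.Fam κ'),
  FPOk q k κ → FamP q k R fm → 1 ≤ R → 0 < κ → κ ≤ 1 / 8 → 0 < c → c ≤ 1 → ∃ P0 : ℝ,
  ∀ P : ℝ, P0 ≤ P → ∀ h lam r Hh N A0 d a M x,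
    HypF q k R κ c P (fm P) h lam r Hh N A0 d a M x →
    AtF (WF q k R P) q (Hh d) M (core x M (q.kp * P)) (q.kp * P / 64)

/-- block 2 (master inequality with families) -/
def MfEv : Prop := ∀ {κ' : Type} (q : FP) (k R : ℕ) (κ c : ℝ) (fm : ℝ → H599.Fam κ'),
  FPOk q k κ → FamP q k R fm → 1 ≤ R → 0 < κ → κ ≤ 1 / 8 → 0 < c → c ≤ 1 → ∃ P0 : ℝ,
  ∀ P : ℝ, P0 ≤ P → ∀ h lam r Hh N A0 d a M x,
    HypF q k R κ c P (fm P) h lam r Hh N A0 d a M x →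
    MF (WF q k R P) q (fm P) M (core x M (q.kp * P)) (q.kp * P / 64)

/-- block 3 (large cells; the atoms of the core are given) -/
def QlEv : Prop := ∀ {κ' : Type} (q : FP) (k R : ℕ) (κ c : ℝ) (fm : ℝ → H599.Fam κ'),
  FPOk q k κ → FamP q k R fm → 1 ≤ R → 0 < κ → κ ≤ 1 / 8 → 0 < c → c ≤ 1 → ∃ P0 : ℝ,
  ∀ P : ℝ, P0 ≤ P → ∀ h lam r Hh N A0 d a M x,
    HypF q k R κ c P (fm P) h lam r Hh N A0 d a M x →
    AtF (WF q k R P) q (Hh d) M (core x M (q.kp * P)) (q.kp * P / 64) →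
    QL (WF q k R P) q M (core x M (q.kp * P)) (q.kp * P / 64) (P / (16 * k))

end Vale.Agent.P042.H362
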