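import Vale.Agent.P042.H121.F1d
import Vale.Agent.P042.H452.Seam3
set_option autoImplicit false
set_option linter.unusedSectionVars false

/-!
P042, power regime: the sum over the low sets and the second moduli of the seam as a sum over all
typed sets and super-moduli (real parts), and the passage to the norm.
-/

namespace Vale.Agent.P042.H362

open Finset Polynomial
open Vale.Agent.P042.H74 (Ram NS Ram_zero)
open Vale.Agent.P042.H452 (FB low MM)
open Vale.Agent.P042.H85 (FBa)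
open Vale.Agent.P042.H121 (DDm M2f omr reindex mem_M2f)

section main

variable {a : Type} [Fintype a] [DecidableEq a] {lo : a → Prop} [DecidablePred lo] {prm : a → ℕ}

/-- the super-moduli `≥ 2` up to `M0`: no tiny prime, no typed prime -/
def MMt (T : Finset ℕ) (prm : a → ℕ) (M0 : ℕ) : Finset ℕ :=
  (Icc 2 M0).filter (fun m => (∀ p ∈ T, ¬ p ∣ m) ∧ ∀ i, ¬ prm i ∣ m)

theorem mem_MMt {T : Finset ℕ} {M0 m : ℕ} :
    m ∈ MMt T prm M0 ↔ (2 ≤ m ∧ m ≤ M0) ∧ (∀ p ∈ T, ¬ p ∣ m) ∧ ∀ i, ¬ prm i ∣ m := by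
  unfold MMt
  rw [mem_filter, mem_Icc]

theorem one_notMem_MMt {T : Finset ℕ} {M0 : ℕ} : 1 ∉ MMt T prm M0 := by
  rw [mem_MMt]
  omega

/-- the moduli `q_U m` lie in `MM` -/
theorem M2f_subset (hp : ∀ i, (prm i).Prime) (hinj : Function.Injective prm) {T : Finset ℕ}
    (hT : ∀ p ∈ T, p.Prime ∧ ∀ i, prm i ≠ p) (M0 : ℕ) :
    M2f lo prm M0 (insert 1 (MMt T prm M0)) ⊆
      MM T (fun i : {i // lo i} => prm i) M0 := by
  intro m2 hm2
  obtain ⟨m, hm, U, hU, h1, rfl⟩ := mem_M2f.1 hm2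
  have hm1 : 1 ≤ m ∧ (∀ p ∈ T, ¬ p ∣ m) ∧ ∀ i, ¬ prm i ∣ m := by
    rcases mem_insert.1 hm with rfl | hm
    · refine ⟨le_rfl, fun p hpT hd => ?_, fun i hd => ?_⟩
      · exact (hT p hpT).1.one_lt.ne' (Nat.dvd_one.1 hd)
      · exact (hp i).one_lt.ne' (Nat.dvd_one.1 hd)
    · obtain ⟨⟨h2, _⟩, h3, h4⟩ := mem_MMt.1 hm
      exact ⟨by omega, h3, h4⟩
  have hpos : 0 < ∏ i ∈ U, prm i := prod_pos fun i _ => (hp i).pos
  unfold MM
  rw [mem_filter, mem_Icc]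
  refine ⟨⟨Nat.mul_pos hpos hm1.1, h1⟩, fun p hpT hd => ?_, fun i hd => ?_⟩
  · rcases ((hT p hpT).1.dvd_mul).1 hd with h | h
    · obtain ⟨j, hj, hpj⟩ := ((hT p hpT).1.prime.dvd_finsetProd_iff _).1 h
      exact (hT p hpT).2 j ((Nat.prime_dvd_prime_iff_eq (hT p hpT).1 (hp j)).1 hpj).symm
    · exact hm1.2.1 p hpT h
  · rcases ((hp i).dvd_mul).1 hd with h | h
    · have h2 := (H74.prm_dvd_prod hp hinj U i).1 h
      exact hU i h2 i.2
    · exact hm1.2.2 i h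

/-- the other moduli of `MM` are divisible by the square of a typed prime -/
theorem sq_of_notMem (hp : ∀ i, (prm i).Prime) (hinj : Function.Injective prm) {T : Finset ℕ}
    {M0 m2 : ℕ} (h : m2 ∈ MM T (fun i : {i // lo i} => prm i) M0)
    (hn : m2 ∉ M2f lo prm M0 (insert 1 (MMt T prm M0))) : ∃ i, prm i ^ 2 ∣ m2 := by
  by_contra hcon
  push Not at hcon
  apply hn
  unfold MM at h
  rw [mem_filter, mem_Icc] at h
  obtain ⟨⟨h1, h2⟩, h3, h4⟩ := h
  obtain ⟨U, hUd⟩ : ∃ U, U = univ.filter (fun i => ¬ lo i ∧ prm i ∣ m2) := ⟨_, rfl⟩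
  have hcop : (U : Set a).Pairwise fun i j => Nat.Coprime (prm i) (prm j) :=
    fun i _ j _ hij => (Nat.coprime_primes (hp i) (hp j)).2 fun h => hij (hinj h)
  have hdvd : ∏ i ∈ U, prm i ∣ m2 :=
    Finset.prod_dvd_of_isRelPrime
      (fun i hi j hj hij => Nat.coprime_iff_isRelPrime.1 (hcop hi hj hij)) fun i hi => by
        rw [hUd, mem_filter] at hi
        exact hi.2.2
  obtain ⟨m, hm⟩ := hdvd
  have hpos : 0 < ∏ i ∈ U, prm i := prod_pos fun i _ => (hp i).pos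
  have hm0 : 0 < m := by
    rcases Nat.eq_zero_or_pos m with h0 | h0
    · rw [h0, mul_zero] at hm
      omega
    · exact h0
  have hmd : m ∣ m2 := hm ▸ Dvd.intro_left _ rfl
  have hmle : m ≤ m2 := Nat.le_of_dvd (by omega) hmd
  have hup : ∀ i, ¬ prm i ∣ m := by
    intro i hi
    by_cases hl : lo i
    · exact h4 ⟨i, hl⟩ (hi.trans hmd)
    · have hiU : i ∈ U := by
        rw [hUd, mem_filter]
        exact ⟨mem_univ i, hl, hi.trans hmd⟩
      apply hcon i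
      rw [hm, pow_two]
      exact mul_dvd_mul (dvd_prod_of_mem prm hiU) hi
  have hTm : ∀ p ∈ T, ¬ p ∣ m := fun p hpT hd => h3 p hpT (hd.trans hmd)
  refine mem_M2f.2 ⟨m, ?_, U, fun i hi => ?_, by rw [← hm]; exact h2, hm.symm⟩
  · rcases Nat.lt_or_ge m 2 with h5 | h5
    · have : m = 1 := by omega
      rw [this]
      exact mem_insert_self _ _
    · exact mem_insert_of_mem (mem_MMt.2 ⟨⟨h5, hmle.trans h2⟩, hTm, hup⟩)
  · rw [hUd, mem_filter] at hi
    exact hi.2.1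

/-- **the sum of the seam over all typed sets and super-moduli** (real parts) -/
theorem low_sum_eq (g : ℤ[X]) (PP : Finset ℕ) (hPP : NS g PP) (hinj : Function.Injective prm)
    (hprm : ∀ i, prm i ∈ PP) {T : Finset ℕ} (hT : ∀ p ∈ T, p.Prime ∧ ∀ i, prm i ≠ p)
    (S1 S2 : Finset ℤ) (f f' : ℤ → ℝ) (K : {i // lo i} → ℤ → ℤ → ℝ) (m0 M0 : ℕ) :
    (∑ C ∈ low {i // lo i} m0, ∑ m2 ∈ MM T (fun i : {i // lo i} => prm i) M0,
      FB g PP S1 S2 f f' K C m2).re =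
    ∑ B ∈ DDm lo prm m0 M0 1, (FBa g PP S1 S2 f f' prm lo K 1 B).re +
      ∑ m ∈ MMt T prm M0, ∑ B ∈ DDm lo prm m0 M0 m, (FBa g PP S1 S2 f f' prm lo K m B).re := by
  have hp : ∀ i, (prm i).Prime := fun i => (hPP _ (hprm i)).1
  have e1 : ∀ C : Finset {i // lo i}, ∑ m2 ∈ MM T (fun i : {i // lo i} => prm i) M0,
      FB g PP S1 S2 f f' K C m2 =
      ∑ m2 ∈ M2f lo prm M0 (insert 1 (MMt T prm M0)), FB g PP S1 S2 f f' K C m2 := by
    intro C
    refine (sum_subset (M2f_subset hp hinj hT M0) fun m2 h1 h2 => ?_).symm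
    obtain ⟨i, hi⟩ := sq_of_notMem hp hinj h1 h2
    have hm2 : 1 ≤ m2 := by
      unfold MM at h1
      rw [mem_filter, mem_Icc] at h1
      exact h1.1.1
    unfold FB
    refine sum_eq_zero fun n _ => sum_eq_zero fun n' _ => ?_
    rw [Ram_zero g PP hPP m2 (prm i) (hprm i) hm2 hi, mul_zero]
  have hup : ∀ m ∈ insert 1 (MMt T prm M0), ∀ i, ¬ lo i → ¬ prm i ∣ m := by
    intro m hm i _ hd
    rcases mem_insert.1 hm with rfl | hm
    · exact (hp i).one_lt.ne' (Nat.dvd_one.1 hd)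
    · exact (mem_MMt.1 hm).2.2 i hd
  have h2 := H121.reindex (lo := lo) hp hinj m0 M0 hup (fun _ => 1)
    (fun C m2 => (FB g PP S1 S2 f f' K C m2).re)
  simp only [prod_const_one, one_mul] at h2
  have h3 : ∀ m2, omr lo prm (fun _ => 1) m2 = 1 := fun m2 => prod_const_one
  simp only [h3, one_mul] at h2
  rw [Complex.re_sum]
  simp only [e1]
  simp only [Complex.re_sum]
  rw [← h2, sum_insert one_notMem_MMt]
  rfl

/-- **the passage to the norm** -/
theorem norm_ge (g : ℤ[X]) (PP : Finset ℕ) (hPP : NS g PP) (hinj : Function.Injective prm)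
    (hprm : ∀ i, prm i ∈ PP) {T : Finset ℕ} (hT : ∀ p ∈ T, p.Prime ∧ ∀ i, prm i ≠ p)
    (S1 S2 : Finset ℤ) (f f' : ℤ → ℝ) (K : {i // lo i} → ℤ → ℤ → ℝ) (m0 M0 : ℕ) {x y : ℝ}
    (hxy : x ≤ y)
    (h : y ≤ ∑ B ∈ DDm lo prm m0 M0 1, (FBa g PP S1 S2 f f' prm lo K 1 B).re +
      ∑ m ∈ MMt T prm M0, ∑ B ∈ DDm lo prm m0 M0 m, (FBa g PP S1 S2 f f' prm lo K m B).re) :
    x ≤ ‖∑ C ∈ low {i // lo i} m0, ∑ m2 ∈ MM T (fun i : {i // lo i} => prm i) M0,
      FB g PP S1 S2 f f' K C m2‖ := by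
  rw [← low_sum_eq g PP hPP hinj hprm hT S1 S2 f f' K m0 M0] at h
  exact hxy.trans (h.trans (Complex.re_le_norm _))

/-- the sets of at most `b0` sites are typed sets of `m` -/
theorem mem_DDm_of_card {b0 m0 M0 m : ℕ} {Y : ℕ} (hY : ∀ i, prm i ≤ Y) (hY1 : 1 ≤ Y)
    (hb : b0 ≤ m0) (hM : Y ^ b0 * m ≤ M0) {B : Finset a} (hB : B.card ≤ b0) :
    B ∈ DDm lo prm m0 M0 m := by
  unfold DDm
  rw [mem_filter]
  refine ⟨mem_univ _, ?_, ?_⟩
  · have h1 : (B.subtype lo).card ≤ B.card := by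
      rw [card_subtype]
      exact card_filter_le _ _
    omega
  · refine le_trans (Nat.mul_le_mul_right m ?_) hM
    calc ∏ i ∈ B.filter (fun i => ¬ lo i), prm i
        ≤ ∏ _i ∈ B.filter (fun i => ¬ lo i), Y := prod_le_prod' fun i _ => hY i
      _ = Y ^ (B.filter (fun i => ¬ lo i)).card := by rw [prod_const]
      _ ≤ Y ^ b0 := Nat.pow_le_pow_right hY1 ((card_filter_le _ _).trans hB)

end main

end Vale.Agent.P042.H362
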