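import Vale.Agent.P042.H362.QlE
import Vale.Agent.P042.H383.NumS
set_option autoImplicit false

/-!
P042 [D], power regime: the one-prime fields of the state, and `stateF`.
-/

namespace Vale.Agent.P042.H362

open Polynomial Finset Vale.Agent.P042.H599 Vale.Agent.P042.H945 Vale.Agent.P042.H739
  Vale.Agent.P042.H972 Vale.Agent.P042.H383 Vale.Agent.P042.H74 Vale.Agent.P042.SS

variable {κ' : Type} {q : FP} {k R : ℕ} {κ c A P : ℝ} {fm : H599.Fam κ'} {h : ℤ[X]}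
  {lam : ℕ → ℕ} {r : ℕ → ℤ} {Hh : ℕ → ℤ[X]} {N : ℕ} {A0 : Finset ℤ} {d : ℕ} {a : ℤ} {M : ℕ}
  {x : ℕ → ℝ}

/-- the density at a prime -/
theorem alN_le (hq : FPOk q k κ) (hB : BigF q A P)
    (H : HypF q k R κ c P fm h lam r Hh N A0 d a M x) {p : ℕ} (hp : p ∈ WF q k R P) :
    Real.exp (alN q k lam (Real.exp (-(q.kp * P / 8))) p) ≤ (p : ℝ) ^ (q.b / 2) := by
  have hP := hB.P64
  have hD64 := hB.D64
  obtain ⟨g1, g2, _⟩ := (mem_WF (by linarith : 0 ≤ P)).1 hp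
  have hp0 : (0 : ℝ) < p := by exact_mod_cast g1.pos
  have hk1 : (1 : ℝ) ≤ k := by exact_mod_cast (by have := H.k2; omega : 1 ≤ k)
  have hk0 : (0 : ℝ) < k := by linarith
  have hbe := hq.be0
  have hek0 : 0 ≤ q.be / (4 * k) := by positivity
  have h4k : q.be / (4 * k) * k = q.be / 4 := by field_simp
  have hlp : 0 ≤ Real.log p := Real.log_natCast_nonneg p
  have h5 := (H.lamle g1.one_le).2
  have h6 : q.be / (4 * k) * Real.log (lam p) ≤ q.be / 4 * Real.log p := by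
    calc q.be / (4 * k) * Real.log (lam p) ≤ q.be / (4 * k) * (k * Real.log p) :=
          mul_le_mul_of_nonneg_left h5 hek0
      _ = q.be / 4 * Real.log p := by rw [← mul_assoc, h4k]
  have h7 := omN_le hq g2
  have h8 := rneg_le_one g1.one_le hq.ga0.le
  have h9 : Real.exp (-(q.kp * P / 8)) ≤ 1 / 16 :=
    (Real.exp_le_exp.2 (by linarith)).trans (exp_small hD64)
  have h10 : Real.log 2 ≤ q.b / 4 * Real.log p := by
    have h11 := hq.K3 p g2
    have h12 := Real.log_le_log (by norm_num) h11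
    rwa [Real.log_rpow hp0] at h12
  have h11 := Real.log_two_gt_d9
  have h12 : q.be / 4 * Real.log p ≤ q.b / 8 * Real.log p :=
    mul_le_mul_of_nonneg_right (by have := hq.beb; linarith) hlp
  rw [Real.rpow_def_of_pos hp0]
  refine Real.exp_le_exp.2 ?_
  unfold alN
  nlinarith

/-- **block 1: the one-prime fields** -/
theorem atEv : AtEv := by
  intro κ' q k R κ c fm hq hf hR hκ hκ8 hc hc1
  obtain ⟨A, P0, hnum⟩ := exists_num hq hf hc1
  obtain ⟨A1, P1, hA1, hev⟩ := hf.ev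
  obtain ⟨Pc, hPc1, hfc⟩ := fields_core (A := max A1 q.C1) (κ := κ) hq.C11 (le_max_right _ _) hq.g0
    hq.g1 hq.gc0.le hq.cr hq.gr1 hq.kp0 (by have := kp_le hq; linarith) hκ8 k
  refine ⟨max P0 (max P1 Pc), fun P hP h lam r Hh N A0 d a M x H => ?_⟩
  have hP0 : P0 ≤ P := (le_max_left _ _).trans hP
  have hP1 : P1 ≤ P := (le_max_left _ _).trans ((le_max_right _ _).trans hP)
  have hPc : Pc ≤ P := (le_max_right _ _).trans ((le_max_right _ _).trans hP)
  obtain ⟨hA, hB, hfq, hcard, herr⟩ := hnum P hP0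
  obtain ⟨f1, f2, f3, f4⟩ := hev P hP1
  have hE := herr h lam r Hh N A0 d a M x H
  have hdn := dnF hq hκ8 hB hfq H hE
  have hsq : SqF (QPF q k R P (fm P) Hh lam) := sqQ hB hfq
  have hP := hB.P64
  have hD64 := hB.D64
  have hkp := kp_le hq
  have hkP : q.kp * P ≤ P / 2560 := by nlinarith
  have hle : P ^ A1 ≤ P ^ (max A1 q.C1) :=
    Real.rpow_le_rpow_of_exponent_le (by linarith) (le_max_left _ _)
  have hmx := H.mx
  have hat : ∀ p ∈ WF q k R P,
      (∀ b, p * cm (core x M (q.kp * P)) 1 M p b ≤ (p : ℝ) ^ q.b) ∧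
      (∀ b, cm (core x M (q.kp * P)) 1 M p b = 0 ∨
        (p : ℝ) ^ (-q.g) / (4 * p) ≤ cm (core x M (q.kp * P)) 1 M p b) ∧
      ∀ b < p, cm (core x M (q.kp * P)) 1 M p b ≠ 0 →
        (p : ℝ) ^ (-q.gr) / 5 ≤ ∑ c ∈ range p, cm (core x M (q.kp * P)) 1 M p c *
          (1 + kN (Hh d) p ((b : ℤ) - c)) ∧
        (p : ℝ) ^ (-q.gr) / 5 ≤ ∑ c ∈ range p, cm (core x M (q.kp * P)) 1 M p c *
          (1 + kN (Hh d) p ((c : ℤ) - b)) := by
    intro p hp
    obtain ⟨g1, g2, g3, g4, g5⟩ := (mem_WF (by linarith : 0 ≤ P)).1 hp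
    have hp0 : (0 : ℝ) < p := by exact_mod_cast g1.pos
    have hp1 : (1 : ℝ) ≤ p := by exact_mod_cast g1.one_le
    have hb0 := hq.b0
    -- the density at the maximiser
    have hsup : ∀ b, p * cm x 1 M p b ≤ (p : ℝ) ^ (q.b / 2) := by
      intro b
      have h1 := dens hmx hsq hdn p g1.squarefree
        ((WF_le hB hp).trans (Real.exp_le_exp.2 (by linarith)))
        (fun p' hp' hd => by rwa [(Nat.prime_dvd_prime_iff_eq hp' g1).1 hd]) b
      rw [Nat.Prime.primeFactors g1, sum_singleton] at h1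
      exact h1.trans (alN_le hq hB H hp)
    have e1 : (p : ℝ) ^ (q.b / 2) ≤ (p : ℝ) ^ q.b :=
      Real.rpow_le_rpow_of_exponent_le hp1 (by linarith)
    have e2 : 2 * (p : ℝ) ^ (q.b / 2) ≤ (p : ℝ) ^ q.b := by
      have h1 := hq.K3 p g2
      calc 2 * (p : ℝ) ^ (q.b / 2) ≤ (p : ℝ) ^ (q.b / 4) * (p : ℝ) ^ (q.b / 2) :=
            mul_le_mul_of_nonneg_right h1 (Real.rpow_nonneg hp0.le _)
        _ = (p : ℝ) ^ (q.b / 4 + q.b / 2) := (Real.rpow_add hp0 _ _).symm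
        _ ≤ (p : ℝ) ^ q.b := Real.rpow_le_rpow_of_exponent_le hp1 (by linarith)
    have h2 := hfc P hPc κ' (fm P) f1 (fun i hi => (f3 i hi).trans hle)
      (fun i hi => by have := f4 i hi; linarith) h lam r Hh R H.aux
      (by have := H.k2; have := H.deg; omega) H.deg (WF q k R P) (fun p' hp' => by
        obtain ⟨w1, w2, w3, w4, w5⟩ := (mem_WF (by linarith : 0 ≤ P)).1 hp'
        exact ⟨w1, w3, w4.le, w5⟩) (q.be / (4 * k)) (2 * P ^ (1 - q.g / 5)) c hB.E1 hc.le hc1 N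
      A0 d a M x hmx H.lo H.hi p hp ((p : ℝ) ^ (q.b / 2)) hsup
      (by
        have h3 := hq.K4 p g2
        have h4 : 32 * (k : ℝ) ^ 2 * (p : ℝ) ^ (q.b / 2) ≤ 32 * (k : ℝ) ^ 2 * (p : ℝ) ^ q.b :=
          mul_le_mul_of_nonneg_left e1 (by positivity)
        linarith)
      (by
        have h3 := hq.K5 p g2
        linarith)
    exact ⟨fun b => (h2.1 b).trans e2, h2.2.1, h2.2.2⟩
  refine ⟨core_lawF hmx, core_nonneg hmx, fun n hn => ?_, fun n => ?_, fun p hp b => ?_,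
    fun p hp b => ?_, fun p hp b hb hb0 => ?_⟩
  · have h1 := core_out n _ hn
    obtain ⟨h2, h3, _⟩ := hmx.mx.1.supp n h1
    exact ⟨h2, h3⟩
  · have h1 := core_cap hmx n
    have h2 : 32 * (q.kp * P / 64) = q.kp * P / 2 := by ring
    rw [h2]
    exact h1
  · exact (hat p hp).2.1 b
  · exact (hat p hp).1 b
  · exact (hat p hp).2.2 b hb hb0

/-- **STATE6 for the power regime** -/
theorem stateF {κ' : Type} (par : ℕ → ℕ → ℝ → FP) (fam : ℕ → ℕ → ℝ → ℝ → H599.Fam κ')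
    (hpar : ∀ (k R : ℕ) (κ : ℝ), 2 ≤ k → 1 ≤ R → 0 < κ → κ ≤ 1 / 8 → FPOk (par k R κ) k κ)
    (hfam : ∀ (k R : ℕ) (κ : ℝ), 2 ≤ k → 1 ≤ R → 0 < κ → κ ≤ 1 / 8 →
      FamP (par k R κ) k R (fam k R κ)) : STATE6 (StF par fam) :=
  stateF_of atEv mfEv qlEv par fam hpar hfam

end Vale.Agent.P042.H362
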