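import Vale.Agent.P042.H860.Loc
import Vale.Agent.P042.H452.HUnn
import Vale.Agent.P042.H85.HFin
import Vale.Agent.P042.H883.FrameI
import Vale.Agent.P042.H387.Top
import Vale.Agent.P042.H599.CellD

set_option autoImplicit false

/-!
# P042, power regime: the local theorem from its parts, at one instance
-/

namespace Vale.Agent.P042.H362

open Polynomial Finset Vale.Agent.P042.SS Vale.Agent.P042.H74 Vale.Agent.P042.H452
open Vale.Agent.P042.H739 Vale.Agent.P042.H245 Vale.Agent.P042.H359 Vale.Agent.P042.H860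
open Vale.Agent.P042.H92 (Prm PLaw PPair Scl BTSof BOof)
open Vale.Agent.P042.H945 (lamR)
open Vale.Agent.P042.H883 (JT snT ellT scT esN nlo scl_si scl_si_some)
open Vale.Agent.P042.H85 (SupI FBa)
open Vale.Agent.P042.H121 (DDm)

/-- the law of the first cell, integer letters -/
theorem pw_1 {I : Inst} {κ : ℝ} (h : Ok I κ) {a : Type} [Fintype a] [DecidableEq a]
    (q : a → ℕ) [∀ i, NeZero (q i)] :
    H85.pw (redZ q) I.S1 I.f1 = H858.pf (rn q) I.nu1 1 I.N := by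
  have : NeZero I.q0 := ⟨by have := h.q0_pos; omega⟩
  have hN : 0 < I.N := by
    have h1 := (Real.exp_pos _).trans_le h.base.lo
    exact_mod_cast h1
  exact pw_im h.hG I.w h.z1N hN q

/-- the law of the second cell, integer letters -/
theorem pw_2 {I : Inst} {κ : ℝ} (h : Ok I κ) {a : Type} [Fintype a] [DecidableEq a]
    (q : a → ℕ) [∀ i, NeZero (q i)] :
    H85.pw (redZ q) I.S2 I.f2 = H858.pf (rn q) I.nu2 1 I.N := by
  have : NeZero I.q0 := ⟨by have := h.q0_pos; omega⟩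
  have hN : 0 < I.N := by
    have h1 := (Real.exp_pos _).trans_le h.base.lo
    exact_mod_cast h1
  exact pw_im h.hG I.w' h.z2N hN q

/-- a super-modulus is large -/
theorem sup_large {I : Inst} {m : ℕ} (hm : 2 ≤ m) (h1 : ∀ p ∈ Tst I.K0, ¬ p ∣ m)
    (h2 : ∀ i : Si I.K0 I.C1 I.P, ¬ i.1 ∣ m) (hP : 0 ≤ I.P) : I.P ^ I.C1 < m := by
  obtain ⟨p, hp, hpm⟩ := Nat.exists_prime_and_dvd (by omega : m ≠ 1)
  have h3 : I.K0 < p := by
    by_contra hc
    refine h1 p ?_ hpm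
    simp only [Tst, mem_filter, mem_range]
    exact ⟨by omega, hp⟩
  have h4 : ⌊I.P ^ I.C1⌋₊ < p := by
    by_contra hc
    exact h2 ⟨p, mem_Typ.2 ⟨not_lt.1 hc, hp, h3⟩⟩ hpm
  have h5 : I.P ^ I.C1 < (p : ℝ) := (Nat.floor_lt (Real.rpow_nonneg hP _)).1 h4
  have h6 : (p : ℝ) ≤ m := by exact_mod_cast Nat.le_of_dvd (by omega) hpm
  linarith

/-- **the system with one super-modulus** -/
theorem supI_of {I : Inst} {κ kap : ℝ} (h : Ok I κ) {Q : Prm} {K0' k : ℕ} (hQC : Q.C1 = I.C1)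
    (hQp : Q.p = Real.log I.P) (hP : 1 ≤ I.P) (hC1 : 1 ≤ I.C1) (hK : 2 ^ K0' ≤ I.K0)
    (hnlo : (nlo I.K0 : ℝ) * Real.log 2 ≤ Q.C1 * Q.p + 1) (hk : 1 ≤ k)
    {K : ∀ i : Si I.K0 I.C1 I.P, ZMod (prm i) → ZMod (prm i) → ℝ}
    {rho ee : Si I.K0 I.C1 I.P → ℝ}
    (hhigh : ∀ i : Si I.K0 I.C1 I.P, ¬ H860.lo I kap i → ∀ n m : ℤ,
      K i (redZ prm n i) (redZ prm m i) = kN I.g (prm i) (n - m))
    (hKO : ∀ (m : ℕ) [NeZero m], 2 ≤ m → (∀ i : Si I.K0 I.C1 I.P, m.Coprime i.1) →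
      KOpt I kap Q K rho ee m) (hL : LawAt I Q) {M0 m : ℕ}
    (hm : m ∈ MMt (Tst I.K0) (fun i : Si I.K0 I.C1 I.P => prm i) M0) :
    SupI Q K0' k (fun i : Si I.K0 I.C1 I.P => scT i) snT ellT I.g I.PP I.S1 I.S2 I.f1 I.f2
      (fun i : Si I.K0 I.C1 I.P => prm i) (lo I kap)
      (fun i n n' => K i.1 (redZ prm n i.1) (redZ prm n' i.1)) m := by
  rw [mem_MMt] at hm
  obtain ⟨⟨hm2, _⟩, hmT, hmp⟩ := hm
  have : NeZero m := ⟨by omega⟩
  have hcop : ∀ i : Si I.K0 I.C1 I.P, m.Coprime i.1 := H599.cop_si_of hmp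
  have hcq : m.Coprime I.q0 := H599.ok_cop_of h hmT
  have HM := rs_M I.K0 I.C1 I.P hm2 hcop
  have hP0 : 0 < I.P := by linarith
  obtain ⟨K', c', w, w', s, rho', e', a1, a2, a3, a4, a5, a6, a7⟩ := hKO m hm2 hcop
  have hlaw := hL (Option (Si I.K0 I.C1 I.P)) (qM I.K0 I.C1 I.P m) (univ.erase none)
    (fun i => esN (qM I.K0 I.C1 I.P m i)) HM
    (by
      rintro (_ | i) hi
      · exact absurd rfl (ne_of_mem_erase hi)
      · exact i.2)
    (fun p hp => ⟨some ⟨p, hp⟩, mem_erase.2 ⟨Option.some_ne_none _, mem_univ _⟩, rfl⟩)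
    (by
      rintro (_ | i) hi p hp
      · exact hmp ⟨p, hp⟩
      · exact absurd (mem_erase.2 ⟨Option.some_ne_none _, mem_univ _⟩) hi)
    (by
      rintro (_ | i)
      · exact hcq
      · exact H599.ok_cop_site h i.2)
    (fun i _ => rfl)
  have hlog : Real.log I.P ≤ Real.log m := by
    refine Real.log_le_log hP0 ?_
    have h1 := sup_large (I := I) hm2 hmT hmp hP0.le
    have h2 : I.P ^ (1 : ℝ) ≤ I.P ^ I.C1 := Real.rpow_le_rpow_of_exponent_le hP hC1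
    rw [Real.rpow_one] at h2
    linarith
  have hm1 : (1 : ℝ) ≤ m := by exact_mod_cast (by omega : 1 ≤ m)
  have hlm : 0 ≤ Real.log m := Real.log_nonneg hm1
  have hQCp : 0 ≤ Q.C1 * Q.p := by
    rw [hQC, hQp]
    exact mul_nonneg (by linarith) (Real.log_nonneg hP)
  refine ⟨fun o => ZMod (qM I.K0 I.C1 I.P m o), inferInstance, inferInstance,
    redZ (qM I.K0 I.C1 I.P m), fun o => Real.log (qM I.K0 I.C1 I.P m o),
    fun o => esN (qM I.K0 I.C1 I.P m o), loO (lo I kap), lamM I m,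
    lam2R (loO (lo I kap)) (lamM I m) (qM I.K0 I.C1 I.P m), H438.uw (qM I.K0 I.C1 I.P m),
    K', c', w, w', s, rho', e', ?_, ?_, ?_, rfl, ?_, ?_, ?_, ?_, ?_⟩
  · exact scl_si Q hQC hP0 hQp hK hQCp hnlo
  · rw [pw_1 h (qM I.K0 I.C1 I.P m), pw_2 h (qM I.K0 I.C1 I.P m)]
    exact a7.ppair hlaw.1 hlaw.2
  · rw [hQp]
    exact hlog
  · rw [a4]
    calc (m : ℝ) = Real.exp (Real.log m) := (Real.exp_log (by linarith)).symm
      _ ≤ Real.exp (k * Real.log m) := by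
        refine Real.exp_le_exp.2 ?_
        have : (1 : ℝ) ≤ k := by exact_mod_cast hk
        nlinarith
  · rw [a6]
    exact (Real.exp_pos _).le
  · intro i n _ n' _
    rw [a1]
    rfl
  · intro i hi n _ n' _
    rw [a1]
    exact (hhigh i hi n n').symm
  · intro n _ n' _
    exact a2 n n'

end Vale.Agent.P042.H362
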