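import Vale.Agent.P042.H362.LocE
import Vale.Agent.P042.H362.TrI

set_option autoImplicit false

/-!
# P042, power regime: the conclusion of `HLOCat` at one instance from `LawAt`, `F1At` and `hfin`
-/

namespace Vale.Agent.P042.H362

open Polynomial Finset Vale.Agent.P042.SS Vale.Agent.P042.H74 Vale.Agent.P042.H452
open Vale.Agent.P042.H739 Vale.Agent.P042.H245 Vale.Agent.P042.H359 Vale.Agent.P042.H860
open Vale.Agent.P042.H92 (Prm PLaw PPair Scl BTSof BOof)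
open Vale.Agent.P042.H945 (lamR)
open Vale.Agent.P042.H883 (JT snT ellT scT esN nlo scl_si scl_si_some)
open Vale.Agent.P042.H85 (SupI FBa pw)
open Vale.Agent.P042.H121 (DDm)

/-- the last lines of `H85.hfin` at one `p` -/
def HFp (z : Loc) (k K1 : ℕ) (θL c0 cD ε θH p : ℝ) : Prop :=
  ∀ Q : Prm, Q = ⟨p, z.C1, z.γ, z.a0, θL, c0, cD, z.kap, z.d1, z.G, z.CK⟩ →
    ∀ (J : Type) [Fintype J] [DecidableEq J] (a : Type) [Fintype a] [DecidableEq a]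
      (V : a → Type) [∀ i, Fintype (V i)] [∀ i, DecidableEq (V i)] (red : ℤ → ∀ i, V i)
      (ℓ es : a → ℝ) (sc : a → J) (sn : J → ℕ) (ell : J → ℝ) (lo' : a → Prop)
      (lam lam2 u : ∀ i, V i → ℝ) (K : ∀ i, V i → V i → ℝ) (c : a → ℝ) (v v' : ∀ i, V i → ℝ)
      (s : ∀ i, V i → V i → ℝ) (rho e : a → ℝ) (F : ℤ[X]) (PP T : Finset ℕ)
      (S1 S2 : Finset ℤ) (f f' : ℤ → ℝ) (prm : a → ℕ) (lo : a → Prop) [DecidablePred lo]
      (Kl : {i // lo i} → ℤ → ℤ → ℝ),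
      NS F PP → Function.Injective prm → (∀ i, prm i ∈ PP) →
      (∀ q ∈ T, q.Prime ∧ ∀ i, prm i ≠ q) → (∀ i, Real.log (prm i) ≤ z.C1 * p) →
      Scl Q K1 univ ℓ es sc sn ell →
      PPair Q univ ℓ es lo' lam lam2 u K c v v' s rho e (pw red S1 f) (pw red S2 f') →
      (∀ (i : {i // lo i}), ∀ n ∈ S1, ∀ n' ∈ S2, Kl i n n' = K i (red n i) (red n' i)) →
      (∀ i, ¬ lo i → ∀ n ∈ S1, ∀ n' ∈ S2, kN F (prm i) (n - n') = K i (red n i) (red n' i)) →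
      (∀ b0 : ℕ, (b0 : ℝ) ≤ 2 * Real.exp ((12 * (z.g * z.C1)) * p) →
        ∀ r : J → ℝ, (∀ j, 0 ≤ r j) →
        (∀ j, r j ≤ min (Real.exp (z.cr * ell j)) ((b0 : ℝ) ^ z.cr)) →
        ∑ B ∈ DDm lo prm ⌊θH * Real.exp p / p⌋₊ ⌊Real.exp (θH * Real.exp p)⌋₊ 1,
          |(FBa F PP S1 S2 f f' prm lo Kl 1 B).re| * ∏ i ∈ B, r (sc i) ≤
          Real.exp (z.C2 + ∑ j, Real.exp (8 * z.g * ell j) * (r j + r j ^ 2))) →
      (∀ b0 : ℕ, (b0 : ℝ) ≤ 2 * Real.exp ((12 * (z.g * z.C1)) * p) →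
        ∀ Z : ℝ, 1 ≤ Z → ∀ r : J → ℝ,
        (∀ j, 0 ≤ r j) → (∀ j, r j ≤ min (Real.exp (z.cr * ell j)) ((b0 : ℝ) ^ z.cr)) →
        ∑ m ∈ (MMt T prm ⌊Real.exp (θH * Real.exp p)⌋₊).filter (fun m : ℕ => Z < (m : ℝ)),
          ∑ B ∈ DDm lo prm ⌊θH * Real.exp p / p⌋₊ ⌊Real.exp (θH * Real.exp p)⌋₊ m,
          |(FBa F PP S1 S2 f f' prm lo Kl m B).re| * ∏ i ∈ B, r (sc i) ≤
          z.δ0 * Real.exp (-(z.c4 * Real.log Z)) *
            Real.exp (z.C2 + ∑ j, Real.exp (8 * z.g * ell j) * (r j + r j ^ 2))) →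
      (∀ m ∈ MMt T prm ⌊Real.exp (θH * Real.exp p)⌋₊, Real.log m ≤ Real.exp (2 * z.d1 * p) →
        SupI Q K1 k sc sn ell F PP S1 S2 f f' prm lo Kl m) →
      Real.exp (-(ε * Real.exp p)) ≤
        ‖∑ C ∈ low {i // lo i} ⌊θH * Real.exp p / p⌋₊,
          ∑ m2 ∈ MM T (fun i : {i // lo i} => prm i) ⌊Real.exp (θH * Real.exp p)⌋₊,
            FB F PP S1 S2 f f' Kl C m2‖

/-- `H85.hfin` with the constants of `Loc` -/
theorem hfp_of (hB : BTSof) (hO : BOof) (k : ℕ) {C1 cr C2 c4 : ℝ} (hC1 : 4 ≤ C1)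
    (hcr0 : 0 < cr) (hcr : cr ≤ 1 / 2) (hC2 : 0 ≤ C2) (hc4 : 0 < c4) :
    ∃ CK0 : ℕ, ∀ CK : ℕ, CK0 ≤ CK → ∃ G0 : ℝ, 0 < G0 ∧ ∀ G : ℝ, 0 < G → G ≤ G0 →
    ∃ δ0 : ℝ, 0 < δ0 ∧ ∃ g0 : ℝ, 0 < g0 ∧ ∃ k0 : ℝ, 0 < k0 ∧ ∀ z : Loc, z.C1 = C1 → z.cr = cr →
      z.C2 = C2 → z.c4 = c4 → z.CK = CK → z.G = G → z.δ0 = δ0 → z.k0 ≤ k0 → z.g ≤ g0 →
      2 * z.d1 < 1 → LocOk z →
      ∃ K1 : ℕ, ∀ θL c0 cD ε θH : ℝ, 0 < θL → 0 < c0 → 0 < cD → cD ≤ z.k0 * (z.γ * θL) →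
        0 < ε → 0 < θH → ∃ p0 : ℝ, ∀ p : ℝ, p0 ≤ p → HFp z k K1 θL c0 cD ε θH p := by
  obtain ⟨CK0, H⟩ := H85.hfin hB hO hC1 k hcr0 hcr hC2 hc4
  refine ⟨CK0, fun CK hCK => ?_⟩
  obtain ⟨G0, hG0, H⟩ := H CK hCK
  refine ⟨G0, hG0, fun G hG hGG => ?_⟩
  obtain ⟨δ0, hδ0, g0, hg0, k0, hk0, H⟩ := H G hG hGG
  refine ⟨δ0, hδ0, g0, hg0, k0, hk0, ?_⟩
  intro z e1 e2 e3 e4 e5 e6 e7 hzk hzg hd hz
  have hgC : 0 < z.g * z.C1 := mul_pos hz.g0 (by linarith [hz.C1])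
  have hkap0 : 0 < z.kap := by rw [hz.kap]; linarith [hz.g0]
  obtain ⟨K1, H⟩ := H z.g z.kap z.γ z.d1 (12 * (z.g * z.C1)) hz.g0 hzg hkap0
    (by rw [hz.kap]; linarith) hz.γ0 (hz.γk.trans (mul_le_mul_of_nonneg_right hzk hkap0.le))
    (by rw [← e1]; nlinarith) (by rw [hz.d1]; linarith) hd (hz.d1k.trans hzk) z.a0
    (by rw [hz.a0]; norm_num)
  refine ⟨K1, fun θL c0 cD ε θH h1 h2 h3 h4 h5 h6 => ?_⟩
  obtain ⟨p0, H⟩ := H θL c0 cD ε θH h1 h2 h3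
    (h4.trans (mul_le_mul_of_nonneg_right hzk (mul_nonneg hz.γ0.le h1.le))) h5 h6
  refine ⟨p0, fun p hp => ?_⟩
  have H := H p hp
  subst e1
  subst e2
  subst e3
  subst e4
  subst e5
  subst e6
  subst e7
  exact H

/-- **one instance** -/
theorem inst_core {z : Loc} (hz : LocOk z) {k K1 : ℕ} (hk : 1 ≤ k) {I : Inst}
    {κ θL c0 cD ε θ : ℝ} (h : Ok I κ) (hC1 : I.C1 = z.C1) (hP : 1 ≤ I.P)
    (hKI : 2 ^ K1 ≤ I.K0)
    (hnlo : (nlo I.K0 : ℝ) * Real.log 2 ≤ z.C1 * Real.log I.P + 1)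
    (hsub : Wst I.K0 z.kap I.P ⊆ Typ I.K0 I.C1 I.P)
    (HF : HFp z k K1 θL c0 cD ε θ (Real.log I.P))
    (hL : LawAt I (z.Q θL c0 cD (Real.log I.P)))
    {K : ∀ i : Si I.K0 I.C1 I.P, ZMod (prm i) → ZMod (prm i) → ℝ}
    {w w' : ∀ i : Si I.K0 I.C1 I.P, ZMod (prm i) → ℝ}
    {s : ∀ i : Si I.K0 I.C1 I.P, ZMod (prm i) → ZMod (prm i) → ℝ}
    {rho ee : Si I.K0 I.C1 I.P → ℝ} (hT : Tilts I z.kap K)
    (hhigh : ∀ i : Si I.K0 I.C1 I.P, ¬ H860.lo I z.kap i → ∀ n m : ℤ,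
      K i (redZ prm n i) (redZ prm m i) = kN I.g (prm i) (n - m))
    (hKP : KPair (z.Q θL c0 cD (Real.log I.P)) univ (fun i => esN (prm i)) (H860.lo I z.kap)
      (H452.lamS I) (lam2R (H860.lo I z.kap) (H452.lamS I) prm) (H438.uw prm) K
      (fun _ => 0) w w' s rho ee)
    (hKO : ∀ (m : ℕ) [NeZero m], 2 ≤ m → (∀ i : Si I.K0 I.C1 I.P, m.Coprime i.1) →
      KOpt I z.kap (z.Q θL c0 cD (Real.log I.P)) K rho ee m)
    (hF : F1At I z θ K) : EndI I z.kap θ ε := by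
  have hP0 : 0 < I.P := by linarith
  have hC4 := hz.C1
  have hlP : 0 ≤ Real.log I.P := Real.log_nonneg hP
  obtain ⟨Q, hQ⟩ : ∃ Q : Prm, Q = z.Q θL c0 cD (Real.log I.P) := ⟨_, rfl⟩
  rw [← hQ] at hL hKP hKO
  have hQC : Q.C1 = I.C1 := by rw [hQ, hC1]; rfl
  have hQp : Q.p = Real.log I.P := by rw [hQ]; rfl
  have hQCp : 0 ≤ Q.C1 * Q.p := by
    rw [hQC, hQp, hC1]
    exact mul_nonneg (by linarith) hlP
  have hnlo' : (nlo I.K0 : ℝ) * Real.log 2 ≤ Q.C1 * Q.p + 1 := by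
    rw [hQC, hQp, hC1]
    exact hnlo
  have hlaw := hL (Si I.K0 I.C1 I.P) prm univ (fun i => esN (prm i)) (rs_S I.K0 I.C1 I.P)
    (fun i _ => i.2) (fun p hp => ⟨⟨p, hp⟩, mem_univ _, rfl⟩)
    (fun i hi => absurd (mem_univ i) hi) (fun i => H599.ok_cop_site h i.2) (fun i _ => rfl)
  obtain ⟨hm1, hm2⟩ := mass_pos h
  have hpp : ∀ i : Si I.K0 I.C1 I.P, (prm i).Prime := fun i => (mem_Typ.1 i.2).2.1
  have key := HF Q hQ (JT I.K0 I.C1 I.P) (Si I.K0 I.C1 I.P) (fun i => ZMod (prm i)) (redZ prm)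
    (fun i => Real.log (prm i)) (fun i => esN (prm i)) (fun i => scT i) snT ellT
    (H860.lo I z.kap) (H452.lamS I) (lam2R (H860.lo I z.kap) (H452.lamS I) prm) (H438.uw prm) K
    (fun _ => 0) w w' s rho ee I.g I.PP (Tst I.K0) I.S1 I.S2 I.f1 I.f2 (fun i => prm i)
    (H860.lo I z.kap) (fun i n n' => K i.1 (redZ prm n i.1) (redZ prm n' i.1))
    h.NS (fun i j hij => Subtype.ext hij) (fun i => by rw [h.PP_eq]; exact i.2)
    (fun q hq => by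
      simp only [Tst, mem_filter, mem_range] at hq
      refine ⟨hq.2, fun i hi => ?_⟩
      have h1 := (mem_Typ.1 i.2).2.2
      have h2 : i.1 = q := hi
      omega)
    (fun i => by
      have h1 := (mem_Typ.1 i.2).1
      have h2 : ((prm i : ℕ) : ℝ) ≤ I.P ^ I.C1 :=
        (by exact_mod_cast h1 : ((prm i : ℕ) : ℝ) ≤ (⌊I.P ^ I.C1⌋₊ : ℝ)).trans
          (Nat.floor_le (Real.rpow_nonneg hP0.le _))
      have h3 := Real.log_le_log (by exact_mod_cast (hpp i).pos) h2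
      rw [Real.log_rpow hP0, hC1] at h3
      exact h3)
    (scl_si Q hQC hP0 hQp hKI hQCp hnlo')
    (by
      rw [pw_1 h prm, pw_2 h prm]
      exact hKP.ppair hlaw.1 hlaw.2)
    (fun i n _ n' _ => rfl)
    (fun i hi n _ n' _ => (hhigh i hi n n').symm)
  have hb : ∀ b0 : ℕ, (b0 : ℝ) ≤ 2 * Real.exp ((12 * (z.g * z.C1)) * Real.log I.P) →
      (b0 : ℝ) ≤ 2 * I.P ^ (12 * (z.g * z.C1)) := fun b0 hb => by
    rw [Real.rpow_def_of_pos hP0, mul_comm (Real.log I.P)]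
    exact hb
  simp only [Real.exp_log hP0] at key
  have key2 := key
    (fun b0 hb0 r hr0 hr => by
      obtain ⟨h1, _⟩ := hF b0 (hb b0 hb0) r hr0 hr
      refine le_trans (sum_le_sum fun B _ => ?_) h1
      exact mul_le_mul_of_nonneg_right (Complex.abs_re_le_norm _)
        (prod_nonneg fun i _ => hr0 _))
    (fun b0 hb0 Z hZ r hr0 hr => by
      obtain ⟨_, h1⟩ := hF b0 (hb b0 hb0) r hr0 hr
      have h2 := h1 ((MMt (Tst I.K0) (fun i : Si I.K0 I.C1 I.P => prm i)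
        ⌊Real.exp (θ * I.P)⌋₊).filter (fun m : ℕ => Z < (m : ℝ)))
        (fun m hm => by
          rw [mem_filter, mem_MMt] at hm
          exact ⟨by omega, hm.1.2.1, hm.1.2.2⟩) Z hZ
        (fun m hm => (mem_filter.1 hm).2)
      refine le_trans (sum_le_sum fun m _ => sum_le_sum fun B _ => ?_) h2
      exact mul_le_mul_of_nonneg_right (Complex.abs_re_le_norm _)
        (prod_nonneg fun i _ => hr0 _))
    (fun m hm _ => supI_of h hQC hQp hP (by rw [hC1]; linarith) hKI hnlo' hk hhigh hKO hL hm)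
  unfold EndI Inst.S1 Inst.S2 Inst.m1 Inst.m2 Inst.w' Inst.q0 Inst.g Inst.PP Inst.g Inst.q1
  exact hloc_fin hT hsub hm1 hm2 key2

end Vale.Agent.P042.H362
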