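import Vale.Agent.P042.H362.LocG

set_option autoImplicit false

/-!
# P042, power regime: the local theorem from its parts
-/

namespace Vale.Agent.P042.H362

open Polynomial Finset Vale.Agent.P042.SS Vale.Agent.P042.H74 Vale.Agent.P042.H452
open Vale.Agent.P042.H739 Vale.Agent.P042.H245 Vale.Agent.P042.H359 Vale.Agent.P042.H860
open Vale.Agent.P042.H92 (Prm PLaw PPair Scl BTSof BOof)
open Vale.Agent.P042.H883 (JT snT ellT scT esN nlo)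

/-- `HLOC` at one `k`, `R` -/
def HLkR (K0f : ℕ → ℕ → ℝ → ℕ) (C1f : ℕ → ℝ) (St : StTy) (k R : ℕ) : Prop :=
  ∀ thQ : ℝ, 0 < thQ → thQ ≤ 1 / 16 →
  ∃ g θ κs : ℝ, 0 < g ∧ g ≤ 1 / 2 ∧ 0 < θ ∧ θ ≤ thQ / 16 ∧ 0 < κs ∧
  ∀ κ : ℝ, 0 < κ → κ ≤ κs → ∀ ε : ℝ, 0 < ε → ∃ P0 : ℝ, ∀ P : ℝ, P0 ≤ P →
  ∀ (f : ℤ[X]) (N' : ℕ) (G : ℤ → ℝ), f.natDegree = k → 0 < f.leadingCoeff →
    (∀ g : ℤ, (∀ j : ℕ, 1 ≤ j → g ∣ f.coeff j) → g ∣ (R : ℤ)) →
    (∀ j : ℕ, |(f.coeff j : ℝ)| ≤ Real.exp (2 * k * κ * P)) →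
    Base6 f κ P N' G → St k R f κ P N' G → HLOCat (C1f k) k R (K0f k R κ) g θ ε P f N' G

/-- **the constants exist** -/
theorem loc_ex (hB : BTSof) (hO : BOof) {k : ℕ} {C2 c4 : ℝ} (hC2 : 0 ≤ C2) (hc4 : 0 < c4) :
    ∃ z : Loc, LocOk z ∧ z.C1 = 4 ∧ z.C2 = C2 ∧ z.c4 = c4 ∧ z.α ≤ 1 ∧ z.kap ≤ 1 / 2 ∧
      ∃ K1 : ℕ, ∀ θL c0 cD ε θH : ℝ, 0 < θL → 0 < c0 → 0 < cD → cD ≤ z.k0 * (z.γ * θL) →
        0 < ε → 0 < θH → ∃ p0 : ℝ, ∀ p : ℝ, p0 ≤ p → HFp z k K1 θL c0 cD ε θH p := by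
  obtain ⟨CK0, H⟩ := hfp_of hB hO k (C1 := 4) (cr := 1 / (2 ^ 11 * 4)) le_rfl (by norm_num)
    (by norm_num) hC2 hc4
  obtain ⟨CK, hCK, hCK12⟩ : ∃ CK : ℕ, CK0 ≤ CK ∧ 12 ≤ CK :=
    ⟨max CK0 12, le_max_left _ _, le_max_right _ _⟩
  have hCKr : (12 : ℝ) ≤ CK := by exact_mod_cast hCK12
  obtain ⟨G0, hG0, H⟩ := H CK hCK
  obtain ⟨G, hG, hGG, hG4⟩ : ∃ G : ℝ, 0 < G ∧ G ≤ G0 ∧ G ≤ 1 / 4 :=
    ⟨min G0 (1 / 4), lt_min hG0 (by norm_num), min_le_left _ _, min_le_right _ _⟩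
  obtain ⟨δ0, hδ0, g0, hg0, k0', hk0', H⟩ := H G hG hGG
  obtain ⟨k0, hk0, hkk, hk1⟩ : ∃ k0 : ℝ, 0 < k0 ∧ k0 ≤ k0' ∧ k0 ≤ 1 :=
    ⟨min k0' 1, lt_min hk0' one_pos, min_le_left _ _, min_le_right _ _⟩
  obtain ⟨g, hg, hgg, hg1, hg2, hg3⟩ : ∃ g : ℝ, 0 < g ∧ g ≤ g0 ∧ g ≤ 1 / 256 ∧ g ≤ k0 / 64 ∧
      g ≤ G / (1024 * CK) :=
    ⟨min (min g0 (1 / 256)) (min (k0 / 64) (G / (1024 * CK))),
      lt_min (lt_min hg0 (by norm_num)) (lt_min (by positivity) (by positivity)),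
      (min_le_left _ _).trans (min_le_left _ _), (min_le_left _ _).trans (min_le_right _ _),
      (min_le_right _ _).trans (min_le_left _ _), (min_le_right _ _).trans (min_le_right _ _)⟩
  obtain ⟨γ, hγ, hγk, hγkap⟩ : ∃ γ : ℝ, 0 < γ ∧ γ ≤ k0 * (g / 32) ∧ γ ≤ g / 32 / 2000 :=
    ⟨min (k0 * (g / 32)) (g / 32 / 2000), lt_min (by positivity) (by positivity),
      min_le_left _ _, min_le_right _ _⟩
  have hd : 16 * (16 * (g * 4) * (CK : ℝ)) ≤ G := by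
    have h1 : (0 : ℝ) < 1024 * CK := by positivity
    rw [le_div_iff₀ h1] at hg3
    linarith
  have hz : LocOk ⟨4, 1 / (2 ^ 11 * 4), C2, c4, CK, G, 8 * g, δ0, k0, g, g / 32, 16 * (g * 4),
      γ, γ / (64 * 4), 10, 0⟩ :=
    { C1 := le_rfl
      cr := rfl
      C2 := hC2
      c4 := hc4
      CK := hCK12
      G0 := hG
      G1 := hG4
      gs := by positivity
      δ0 := hδ0
      k0 := hk0
      k01 := hk1
      g0 := hg
      ggs := le_rfl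
      gC1 := by show 32 * (g * 4) ≤ 1; linarith
      kap := rfl
      d1 := rfl
      d1k := by show 16 * (g * 4) ≤ k0; linarith
      d1CK := hd
      γ0 := hγ
      γk := hγk
      γkap := hγkap
      α0 := by show 0 < γ / (64 * 4); positivity
      αγ := rfl
      a0 := rfl }
  refine ⟨_, hz, rfl, rfl, rfl, ?_, ?_, H _ rfl rfl rfl rfl rfl rfl rfl hkk hgg ?_ hz⟩
  · show γ / (64 * 4) ≤ 1
    linarith
  · show g / 32 ≤ 1 / 2
    linarith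
  · show 2 * (16 * (g * 4)) < 1
    linarith

/-- **`HLOC` at one `k`, `R`** -/
theorem hlkR_of (hB : BTSof) (hO : BOof) (hL : LawF) (hF : F1F) {k R : ℕ} (hk : 2 ≤ k)
    (hR : 1 ≤ R) :
    ∃ (z : Loc) (thr : ℝ → ℕ) (thb : ℝ → ℕ → ℝ), LocOk z ∧ z.C1 = 4 ∧ z.α ≤ 1 ∧
      (∀ κ n, 0 < thb κ n) ∧
      ∀ (C1 : ℕ → ℝ) (cs : ℕ → ℕ → H387.Cst) (par : ℕ → ℕ → ℝ → FP),
        FitAt z thr thb C1 cs par k R →
        HLkR (H387.K0fun par) C1 (StF par (H387.mkFam C1 cs par)) k R := by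
  obtain ⟨C2, c4, hC2, hc4, HF0⟩ := hF k R hk hR
  obtain ⟨z, hz, hz4, hzC2, hzc4, hzα, hzkap, K1, HP⟩ := loc_ex hB hO (k := k) hC2 hc4
  obtain ⟨thrL, thbL, hthbL, HL0⟩ := hL k R z hk hR hz
  obtain ⟨thrF, thbF, hthbF, HF0⟩ := HF0 z hz hzC2 hzc4
  have hC4 := hz.C1
  have hα0 := hz.α0
  have hγ0 := hz.γ0
  have hg0 := hz.g0
  have hkap0 : 0 < z.kap := by rw [hz.kap]; linarith
  have hα : z.α = z.γ / 256 := by rw [hz.αγ, hz4]; norm_num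
  have hγkap := hz.γkap
  obtain ⟨K00, Pk, HK⟩ := kin k (by omega) (α := z.α) (γ := z.γ) (b := z.α / 16)
    (gr := z.α / 4) (kap := z.kap) hα0 (by linarith) (by linarith) (by linarith) (by linarith)
    hkap0 hzkap (by linarith)
  refine ⟨z, fun κ => max (max (thrL κ) (thrF κ)) (max K00 (2 ^ K1)),
    fun κ n => min (thbL κ n) (thbF κ n), hz, hz4, hzα, fun κ n => lt_min (hthbL κ n) (hthbF κ n),
    fun C1 cs par hfit => ?_⟩
  have fitL : FitAt z thrL thbL C1 cs par k R :=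
    hfit.mono (fun κ => (le_max_left _ _).trans (le_max_left _ _)) fun κ n => min_le_left _ _
  have fitF : FitAt z thrF thbF C1 cs par k R :=
    hfit.mono (fun κ => (le_max_right _ _).trans (le_max_left _ _)) fun κ n => min_le_right _ _
  obtain ⟨θL, hθL, HL1⟩ := HL0 C1 cs par fitL
  obtain ⟨θF, hθF, HF1⟩ := HF0 C1 cs par fitF
  intro thQ hthQ _
  obtain ⟨θ, hθ, hθ1, hθ2⟩ : ∃ θ : ℝ, 0 < θ ∧ θ ≤ θF ∧ θ ≤ thQ / 16 :=
    ⟨min θF (thQ / 16), lt_min hθF (by positivity), min_le_left _ _, min_le_right _ _⟩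
  obtain ⟨κL, hκL, HL2⟩ := HL1 θL hθL le_rfl
  obtain ⟨κF, hκF, HF2⟩ := HF1 θ hθ hθ1
  refine ⟨z.kap, θ, min κL κF, hkap0, hzkap, hθ, hθ2, lt_min hκL hκF, fun κ hκ hκs ε hε => ?_⟩
  obtain ⟨c0, cD, hc0, hcD, hcDk, PL, HL3⟩ := HL2 κ hκ (hκs.trans (min_le_left _ _))
  obtain ⟨PF, HF3⟩ := HF2 κ hκ (hκs.trans (min_le_right _ _))
  obtain ⟨p0, HP1⟩ := HP θL c0 cD ε θ hθL hc0 hcD hcDk hε hθ
  obtain ⟨K0, hK0e⟩ : ∃ K0 : ℕ, K0 = H387.K0fun par k R κ := ⟨_, rfl⟩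
  refine ⟨max (max PL PF) (max (max (Real.exp p0) Pk)
    (max 1 (Real.exp ((nlo K0 : ℝ) * Real.log 2)))), fun P hP f N' G hdeg hlead hcont _ hBs hSt => ?_⟩
  have hPL : PL ≤ P := ((le_max_left _ _).trans (le_max_left _ _)).trans hP
  have hPF : PF ≤ P := ((le_max_right _ _).trans (le_max_left _ _)).trans hP
  have hPp : Real.exp p0 ≤ P :=
    ((le_max_left _ _).trans ((le_max_left _ _).trans (le_max_right _ _))).trans hP
  have hPk : Pk ≤ P :=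
    ((le_max_right _ _).trans ((le_max_left _ _).trans (le_max_right _ _))).trans hP
  have hP1 : 1 ≤ P :=
    ((le_max_left _ _).trans ((le_max_right _ _).trans (le_max_right _ _))).trans hP
  have hPn : Real.exp ((nlo K0 : ℝ) * Real.log 2) ≤ P :=
    ((le_max_right _ _).trans ((le_max_right _ _).trans (le_max_right _ _))).trans hP
  have hP0 : 0 < P := by linarith
  have hp0 : p0 ≤ Real.log P := (Real.le_log_iff_exp_le hP0).2 hPp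
  have hnlo : (nlo K0 : ℝ) * Real.log 2 ≤ z.C1 * Real.log P + 1 := by
    have h1 := (Real.le_log_iff_exp_le hP0).2 hPn
    have h2 : 0 ≤ Real.log P := Real.log_nonneg hP1
    nlinarith
  obtain ⟨mu, hst, hG⟩ := hSt
  have hF0 := hfit.fit κ hκ
  have hqK0 : max (max (thrL κ) (thrF κ)) (max K00 (2 ^ K1)) ≤ (par k R κ).K0 := hF0.K0
  have hKK : (par k R κ).K0 ≤ K0 := by
    rw [hK0e]
    exact (le_max_left _ _).trans (le_max_left _ _)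
  have hK00 : K00 ≤ K0 := ((le_max_left _ _).trans (le_max_right _ _)).trans (hqK0.trans hKK)
  have hK1 : 2 ^ K1 ≤ K0 := ((le_max_right _ _).trans (le_max_right _ _)).trans (hqK0.trans hKK)
  have hRK : R ≤ K0 := by
    rw [hK0e]
    exact (le_max_right _ _).trans (le_max_left _ _)
  have hkK : 2 * k ≤ K0 := by
    rw [hK0e]
    exact le_max_right _ _
  have hqC1 : (par k R κ).C1 = z.C1 := by rw [hF0.eC1, hfit.eC1]
  have hcγ : (cs k R).γ = z.α := by rw [hfit.ecs]; rfl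
  rw [← hK0e]
  refine hlocat_of (κ := κ) mu hk hR hRK hkK hdeg hlead hcont hBs hG ?_
  intro I hOk ek eR eK0 eC1 eP ef eN eG emu
  have hAt : At C1 cs par k R κ P I :=
    { hk := ek
      hR := eR
      hK0 := by rw [eK0, hK0e]
      hC1 := eC1
      hP := eP
      ok := hOk
      st := by
        rw [ef, eN, emu]
        exact hst }
  have hIC : I.C1 = z.C1 := by rw [eC1, hfit.eC1]
  have hlawI := HL3 P hPL I hAt
  have hF1 := HF3 P hPF I hAt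
  rw [← eP] at hlawI
  have hWF : WF (par k R κ) k R P = Typ I.K0 I.C1 I.P := by
    rw [WF_eq (par k R κ) k R K0 P (by rw [hK0e]; rfl), eK0, hIC, hqC1, eP]
  have hAtF : AtF (Typ I.K0 I.C1 I.P) (par k R κ) I.f I.N I.mu ((par k R κ).kp * P / 64) := by
    have h1 := hst.toAtF
    rw [hWF] at h1
    rw [ef, eN, emu]
    exact h1
  obtain ⟨K, w, w', s, rho, ee, hT, hhigh, _, hKP, hKO⟩ := HK I κ _ (par k R κ)
    (z.Q θL c0 cD (Real.log I.P)) ek hOk (by rw [eK0]; exact hK00) (by rw [eP]; exact hPk)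
    (by rw [hIC]; linarith) rfl rfl rfl (by rw [hF0.b, hcγ]) (by rw [hF0.gr, hcγ]) hAtF
  have hsub : Wst I.K0 z.kap I.P ⊆ Typ I.K0 I.C1 I.P :=
    Wst_sub (by rw [eP]; exact hP1) (by rw [hIC]; linarith)
  exact inst_core hz (k := k) (K1 := K1) (by omega) hOk hIC (by rw [eP]; exact hP1)
    (by rw [eK0]; exact hK1) (by rw [eK0, eP]; exact hnlo) hsub (by rw [eP]; exact HP1 _ hp0)
    hlawI hT hhigh hKP hKO
    (hF1 K w w' s rho ee hKP.ob (fun i => hKP.rho1 i (mem_univ i))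
      (fun i => hKP.e1 i (mem_univ i)) hhigh)

/-- **the local theorem of the power version from its parts** -/
theorem locF_of (hB : BTSof) (hO : BOof) (hL : LawF) (hF : F1F) : H387.LocF := by
  classical
  have H : ∀ k R : ℕ, ∃ (c : H387.Cst) (thr : ℝ → ℕ) (thb : ℝ → ℕ → ℝ), H387.CstOk c ∧
      (∀ κ n, 0 < thb κ n) ∧ (2 ≤ k → 1 ≤ R →
      ∀ (C1 : ℕ → ℝ) (cs : ℕ → ℕ → H387.Cst) (par : ℕ → ℕ → ℝ → FP), C1 k = 4 → cs k R = c →
        (∀ κ : ℝ, 0 < κ → H387.Fit C1 cs (fun _ _ _ => 1) (fun _ _ => thr) (fun _ _ => thb) k R κ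
          (par k R κ)) →
        HLkR (H387.K0fun par) C1 (StF par (H387.mkFam C1 cs par)) k R) := by
    intro k R
    by_cases h : 2 ≤ k ∧ 1 ≤ R
    · obtain ⟨z, thr, thb, hz, hz4, hzα, hthb, H⟩ := hlkR_of hB hO hL hF h.1 h.2
      refine ⟨cstOf z, thr, thb, ⟨hz.α0, hzα, ?_, le_rfl⟩, hthb, fun _ _ C1 cs par hC1 hcs hfit =>
        H C1 cs par ⟨by rw [hC1, hz4], hcs, hfit⟩⟩
      show 0 ≤ 2 * z.d1
      rw [hz.d1]
      have := hz.g0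
      have := hz.C1
      positivity
    · exact ⟨⟨1, 1, 0, 1, 1⟩, fun _ => 0, fun _ _ => 1, ⟨one_pos, le_rfl, le_rfl, le_rfl⟩,
        fun _ _ => one_pos, fun h1 h2 => absurd ⟨h1, h2⟩ h⟩
  choose c thr thb hc hthb H using H
  refine ⟨fun _ => 4, fun _ => by norm_num, c, fun k R _ => hc k R, fun _ _ _ => 1,
    fun _ _ _ => one_pos, thr, thb, fun k R κ n => hthb k R κ n, fun par hfit => ?_⟩
  intro k R hk hR
  refine H k R hk hR (fun _ => 4) c par rfl rfl fun κ hκ => ?_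
  have h := hfit k R κ hk hκ
  exact ⟨h.ok, h.eC1, h.g, h.gr, h.gc, h.b, h.ga, h.kp, h.K0, h.be⟩

end Vale.Agent.P042.H362
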