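import Vale.Agent.P042.H362.MfN
set_option autoImplicit false

/-!
P042 [D], power regime: the fields `mf` and `ql` of the state.
-/

namespace Vale.Agent.P042.H362

open Polynomial Finset Vale.Agent.P042.H599 Vale.Agent.P042.H945 Vale.Agent.P042.H739
  Vale.Agent.P042.H972 Vale.Agent.P042.H383 Vale.Agent.P042.H74 Vale.Agent.P042.SS

variable {κ' : Type} {q : FP} {k R : ℕ} {κ c A P : ℝ} {fm : H599.Fam κ'} {h : ℤ[X]}
  {lam : ℕ → ℕ} {r : ℕ → ℤ} {Hh : ℕ → ℤ[X]} {N : ℕ} {A0 : Finset ℤ} {d : ℕ} {a : ℤ} {M : ℕ}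
  {x : ℕ → ℝ}

/-- the sum of the logarithms of the primes of `D` -/
theorem sum_log_le (W : Finset ℕ) (hW : ∀ p ∈ W, p.Prime) {D : ℕ} (hD : 1 ≤ D) :
    ∑ p ∈ W with p ∣ D, Real.log p ≤ Real.log D := by
  have h1 : ∏ p ∈ W with p ∣ D, p ∣ D :=
    Finset.prod_primes_dvd D (fun p hp => (hW p (mem_filter.1 hp).1).prime)
      (fun p hp => (mem_filter.1 hp).2)
  have h2 : ∏ p ∈ W with p ∣ D, p ≤ D := Nat.le_of_dvd (by omega) h1
  have h3 : ∑ p ∈ W with p ∣ D, Real.log p = Real.log ((∏ p ∈ W with p ∣ D, p : ℕ) : ℝ) := by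
    rw [Nat.cast_prod, Real.log_prod]
    intro p hp
    have := (hW p (mem_filter.1 hp).1).pos
    exact_mod_cast this.ne'
  rw [h3]
  have h4 : 0 < ∏ p ∈ W with p ∣ D, p := Finset.prod_pos fun p hp => (hW p (mem_filter.1 hp).1).pos
  exact Real.log_le_log (by exact_mod_cast h4) (by exact_mod_cast h2)

/-- **the cost** -/
theorem cost_le (hq : FPOk q k κ) (hB : BigF q A P)
    (H : HypF q k R κ c P fm h lam r Hh N A0 d a M x) {D : ℕ} (hD : 1 ≤ D) {V : ℕ}
    (hV0 : 0 < V) (hVM : V ≤ M) {e : ℝ} (he : e ≤ q.be) :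
    q.be / (4 * k) * (Real.log (lam D) + (Real.log M - Real.log V)) +
      ∑ p ∈ WF q k R P with p ∣ D,
        (3 / 8 * alN q k lam (Real.exp (-(q.kp * P / 8))) p + omN q p) + e ≤
    costF (WF q k R P) q D M V := by
  have hP := hB.P64
  have hD64 := hB.D64
  have hbe := hq.be0
  have hk1 : (1 : ℝ) ≤ k := by exact_mod_cast (by have := H.k2; omega : 1 ≤ k)
  have hk0 : (0 : ℝ) < k := by linarith
  have hlD : 0 ≤ Real.log D := Real.log_natCast_nonneg D
  have hV0' : (0 : ℝ) < V := by exact_mod_cast hV0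
  have hlV : 0 ≤ Real.log M - Real.log V := by
    have := Real.log_le_log hV0' (show (V : ℝ) ≤ M by exact_mod_cast hVM)
    linarith
  have hlam := (H.lamle hD).2
  have h4k : q.be / (4 * k) * k = q.be / 4 := by field_simp
  have hek0 : 0 ≤ q.be / (4 * k) := by positivity
  have hek1 : q.be / (4 * k) ≤ q.be / 4 := by
    rw [div_le_div_iff_of_pos_left hbe (by positivity) (by norm_num)]
    linarith
  have h1 : q.be / (4 * k) * Real.log (lam D) ≤ q.be / 4 * Real.log D := by
    calc q.be / (4 * k) * Real.log (lam D) ≤ q.be / (4 * k) * (k * Real.log D) :=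
          mul_le_mul_of_nonneg_left hlam hek0
      _ = q.be / 4 * Real.log D := by rw [← mul_assoc, h4k]
  have h2 : q.be / (4 * k) * (Real.log M - Real.log V) ≤
      q.be / 4 * (Real.log M - Real.log V) := mul_le_mul_of_nonneg_right hek1 hlV
  have h3 : ∑ p ∈ WF q k R P with p ∣ D,
        (3 / 8 * alN q k lam (Real.exp (-(q.kp * P / 8))) p + omN q p) ≤
      ∑ p ∈ WF q k R P with p ∣ D, (3 / 16 * q.be * Real.log p + (p : ℝ) ^ (-q.ga)) := by
    refine sum_le_sum fun p hp => ?_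
    have hp1 := (mem_filter.1 hp).1
    obtain ⟨g1, g2, _⟩ := (mem_WF (by linarith : 0 ≤ P)).1 hp1
    have h5 := (H.lamle g1.one_le).2
    have h6 : q.be / (4 * k) * Real.log (lam p) ≤ q.be / 4 * Real.log p := by
      calc q.be / (4 * k) * Real.log (lam p) ≤ q.be / (4 * k) * (k * Real.log p) :=
            mul_le_mul_of_nonneg_left h5 hek0
        _ = q.be / 4 * Real.log p := by rw [← mul_assoc, h4k]
    have h7 := omN_le hq g2
    have h8 : Real.exp (-(q.kp * P / 8)) ≤ (p : ℝ) ^ (-q.ga) / 16 := by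
      have h9 := WF_pow hB hp1 hq.ga0.le
      have h10 : Real.exp (-(q.kp * P / 64)) ≤ Real.exp (-(q.ga * (q.kp * P / 64))) := by
        refine Real.exp_le_exp.2 ?_
        have := hq.ga1
        nlinarith
      have h11 : Real.exp (-(q.kp * P / 8)) ≤
          Real.exp (-(q.kp * P / 64)) * Real.exp (-(q.kp * P / 16)) := by
        rw [← Real.exp_add]
        exact Real.exp_le_exp.2 (by linarith)
      have h12 := exp_small hD64
      have h13 : Real.exp (-(q.kp * P / 64)) * Real.exp (-(q.kp * P / 16)) ≤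
          Real.exp (-(q.kp * P / 64)) * (1 / 16) :=
        mul_le_mul_of_nonneg_left h12 (Real.exp_pos _).le
      linarith
    unfold alN
    have h14 : 0 ≤ (p : ℝ) ^ (-q.ga) := Real.rpow_nonneg (Nat.cast_nonneg _) _
    linarith
  have h4 : ∑ p ∈ WF q k R P with p ∣ D, (3 / 16 * q.be * Real.log p + (p : ℝ) ^ (-q.ga)) ≤
      3 / 16 * q.be * Real.log D + ∑ p ∈ WF q k R P with p ∣ D, (p : ℝ) ^ (-q.ga) := by
    rw [sum_add_distrib, ← mul_sum]
    have h5 := mul_le_mul_of_nonneg_left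
      (sum_log_le (WF q k R P) (fun p hp => WF_prime hB hp) hD) (show 0 ≤ 3 / 16 * q.be by
        positivity)
    linarith
  have h5 : 0 ≤ q.be * Real.log D := by positivity
  have h6 : 0 ≤ q.be * (Real.log M - Real.log V) := by positivity
  unfold costF
  linarith

/-- the entropy terms of the functional -/
theorem KF_QPF (D : ℕ) (y z : ℕ → ℝ) :
    KF (QPF q k R P fm Hh lam) D M y z =
      ∑ p ∈ WF q k R P with Nat.Coprime p D, (p : ℝ) ^ (-q.g) * klc y z M p +
      ∑ i ∈ fI fm with Nat.Coprime (∏ p ∈ i.2, p) D, fc fm i * klc y z M (∏ p ∈ i.2, p) := by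
  have h1 : KF (QPF q k R P fm Hh lam) D M y z =
      ∑ i ∈ (WF q k R P).disjSum (fI fm),
        (if Nat.Coprime ((QPF q k R P fm Hh lam).m i) D then
          (QPF q k R P fm Hh lam).c i * klc y z M ((QPF q k R P fm Hh lam).m i) else 0) := by
    unfold KF
    rw [sum_filter]
    rfl
  rw [h1, sum_disjSum, sum_filter, sum_filter]
  rfl

/-- bounds of a window and of a cell -/
theorem cell_num (hq : FPOk q k κ) (hκ8 : κ ≤ 1 / 8) (hB : BigF q A P)
    (H : HypF q k R κ c P fm h lam r Hh N A0 d a M x) {V : ℕ}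
    (hV : (M : ℝ) ≤ Real.exp (q.kp * P / 64) * V) :
    Real.exp (3 / 4 * P) ≤ V := by
  have hP := hB.P64
  have hkp := kp_le hq
  have hMge := H.M_ge hκ8 (by linarith)
  have hkP : q.kp * P ≤ P / 2560 := by nlinarith
  have h1 : Real.exp (q.kp * P / 64) * Real.exp (3 / 4 * P) ≤ Real.exp (q.kp * P / 64) * V := by
    refine le_trans ?_ (hMge.trans hV)
    rw [← Real.exp_add]
    exact Real.exp_le_exp.2 (by linarith)
  exact le_of_mul_le_mul_left h1 (Real.exp_pos _)

/-- **block 2: the master inequality with the families** -/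
theorem mfEv : MfEv := by
  intro κ' q k R κ c fm hq hf hR hκ hκ8 hc hc1
  obtain ⟨A, P0, hnum⟩ := exists_num hq hf hc1
  refine ⟨P0, fun P hP h lam r Hh N A0 d a M x H => ?_⟩
  obtain ⟨hA, hB, hfq, hcard, herr⟩ := hnum P hP
  have hE := herr h lam r Hh N A0 d a M x H
  have hdn := dnF hq hκ8 hB hfq H hE
  have hsq : SqF (QPF q k R P (fm P) Hh lam) := sqQ hB hfq
  have hP := hB.P64
  have hD64 := hB.D64
  have hkp := kp_le hq
  have hkp0 := hq.kp0
  have hkP : q.kp * P ≤ P / 2560 := by nlinarith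
  have hk1 : (1 : ℝ) ≤ k := by exact_mod_cast (by have := H.k2; omega : 1 ≤ k)
  have hkk : k * q.kp ≤ 1 := by
    have h1 := hq.kpk
    rw [le_div_iff₀ (by linarith)] at h1
    linarith
  have hMp := H.M_pos
  intro D w u v y hD hlD hu hv hMV hm0 hthick hy hy0 hyK
  obtain ⟨V, hVd⟩ : ∃ V, V = v + 1 - u := ⟨_, rfl⟩
  rw [← hVd] at hMV hthick ⊢
  obtain ⟨m, hmd⟩ : ∃ m, m = ms (core x M (q.kp * P)) M (cl D w u v) := ⟨_, rfl⟩
  have hD0' : (0 : ℝ) < D := by exact_mod_cast hD
  have hVe := cell_num hq hκ8 hB H hMV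
  have hVp : (0 : ℝ) < V := lt_of_lt_of_le (Real.exp_pos _) hVe
  have hVp' : 0 < V := by exact_mod_cast hVp
  have hVM : V ≤ M := by omega
  have hVM' : (V : ℝ) ≤ M := by exact_mod_cast hVM
  have hDQ : (D : ℝ) ≤ Real.exp (q.kp * P / 16) := by
    rw [← Real.log_le_iff_le_exp hD0']
    linarith
  have hDk : k * Real.log D ≤ P / 16 := by
    have h1 : k * Real.log D ≤ k * (q.kp * P / 64) := mul_le_mul_of_nonneg_left hlD (by linarith)
    have h2 : k * (q.kp * P / 64) = (k * q.kp) * P / 64 := by ring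
    have h4 : (k * q.kp) * P ≤ 1 * P := mul_le_mul_of_nonneg_right hkk (by linarith)
    linarith
  obtain ⟨hlen1, hlen2⟩ := len_num H hP hD hDk hVe
  -- the density of the cell
  have hmM : 1 / m ≤ Real.exp (3 * (q.kp * P / 64)) := by
    rw [← hmd] at hthick hm0
    rw [div_le_iff₀ hm0]
    have h1 : Real.exp (q.kp * P / 64) * (Real.exp (-(q.kp * P / 64)) * V) ≤
        Real.exp (q.kp * P / 64) * (D * m * M) :=
      mul_le_mul_of_nonneg_left hthick (Real.exp_pos _).le
    rw [← mul_assoc, ← Real.exp_add, add_neg_cancel, Real.exp_zero, one_mul] at h1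
    have hDe : (D : ℝ) ≤ Real.exp (q.kp * P / 64) := by
      rw [← Real.log_le_iff_le_exp hD0']
      exact hlD
    have h2 : Real.exp (q.kp * P / 64) * (D * m * M) ≤
        Real.exp (q.kp * P / 64) * (Real.exp (q.kp * P / 64) * m *
          (Real.exp (q.kp * P / 64) * V)) := by
      gcongr
    have h3 : Real.exp (q.kp * P / 64) * (Real.exp (q.kp * P / 64) * m *
          (Real.exp (q.kp * P / 64) * V)) = Real.exp (3 * (q.kp * P / 64)) * m * V := by
      have : Real.exp (3 * (q.kp * P / 64)) = Real.exp (q.kp * P / 64) *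
          Real.exp (q.kp * P / 64) * Real.exp (q.kp * P / 64) := by
        rw [← Real.exp_add, ← Real.exp_add]; congr 1; ring
      rw [this]; ring
    have h4 : 1 * (V : ℝ) ≤ Real.exp (3 * (q.kp * P / 64)) * m * V := by
      rw [one_mul]
      linarith
    exact le_of_mul_le_mul_right h4 hVp
  have hK0 : 2 * Real.exp (q.kp * P / 64) / m ≤ 2 * Real.exp (q.kp * P / 16) := by
    have h1 : 2 * Real.exp (q.kp * P / 64) / m = 2 * Real.exp (q.kp * P / 64) * (1 / m) := by ring
    rw [h1]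
    calc 2 * Real.exp (q.kp * P / 64) * (1 / m)
        ≤ 2 * Real.exp (q.kp * P / 64) * Real.exp (3 * (q.kp * P / 64)) :=
          mul_le_mul_of_nonneg_left hmM (by positivity)
      _ = 2 * Real.exp (q.kp * P / 16) := by
          rw [mul_assoc, ← Real.exp_add]; congr 2; ring
  have hmf := mfF (Q := QPF q k R P (fm P) Hh lam) H.mx hsq hdn (D := D) (w := w) (u := u) (v := v)
    hD hDQ hu hv (by rw [← hVd]; exact hlen1) (Dm := q.kp * P / 64) (by linarith)
    (show 8 * (q.kp * P / 64) + 4 ≤ q.kp * P by linarith) hm0 (by rw [← hVd]; exact hthick) hy hy0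
    hyK (K0 := 2 * Real.exp (q.kp * P / 16)) (by
      have := hK0
      rw [hmd] at this
      exact this)
  rw [← hVd] at hmf
  have hlogK : Real.log (2 * Real.exp (q.kp * P / 16)) ≤ P := by
    rw [Real.log_mul (by norm_num) (Real.exp_pos _).ne', Real.log_exp]
    have := Real.log_le_sub_one_of_pos (show (0 : ℝ) < 2 by norm_num)
    linarith
  have hErr := hE (2 * Real.exp (q.kp * P / 16)) (lam D / V) hlogK
  -- the number of terms
  have hC1 : C1 (QPF q k R P (fm P) Hh lam) ≤ P ^ A + P ^ A := by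
    refine C1_PP_le hfq.ok (WF q k R P) (pw' q.g) _ lam _ _ _ hcard (fun p hp => ?_) hfq.K
      (Real.rpow_nonneg (by linarith) _)
    exact rneg_le_one (WF_prime hB hp).one_le hq.g0.le
  have hC1' : C1 (QPF q k R P (fm P) Hh lam) * (2 * Real.exp (q.kp * P / 16) *
      Real.exp (-(q.kp * P / 4))) ≤ 4 * (Real.exp (-(q.kp * P / 8)) *
        Real.exp (-(q.kp * P / 16)) * Real.exp (q.kp * P / 64)) := by
    have h1 := hB.pa
    have h2 : C1 (QPF q k R P (fm P) Hh lam) ≤ 2 * Real.exp (q.kp * P / 64) := by linarith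
    have h3 : Real.exp (q.kp * P / 16) * Real.exp (-(q.kp * P / 4)) =
        Real.exp (-(q.kp * P / 8)) * Real.exp (-(q.kp * P / 16)) := by
      rw [← Real.exp_add, ← Real.exp_add]; congr 1; ring
    calc C1 (QPF q k R P (fm P) Hh lam) * (2 * Real.exp (q.kp * P / 16) *
        Real.exp (-(q.kp * P / 4)))
        = C1 (QPF q k R P (fm P) Hh lam) * (2 * (Real.exp (q.kp * P / 16) *
            Real.exp (-(q.kp * P / 4)))) := by ring
      _ ≤ 2 * Real.exp (q.kp * P / 64) * (2 * (Real.exp (q.kp * P / 16) *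
            Real.exp (-(q.kp * P / 4)))) := mul_le_mul_of_nonneg_right h2 (by positivity)
      _ = _ := by rw [h3]; ring
  have hD0 : (QPF q k R P (fm P) Hh lam).D0 = q.kp * P := rfl
  have heta : (QPF q k R P (fm P) Hh lam).eta = q.be / (4 * k) := rfl
  have hlam : (QPF q k R P (fm P) Hh lam).lam = lam := rfl
  have hW : (QPF q k R P (fm P) Hh lam).W = WF q k R P := rfl
  rw [hD0, heta, hlam, hW, KF_QPF] at hmf
  -- the errors
  have e1 := exp_small hD64
  have e0 := Real.exp_pos (-(q.kp * P / 8))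
  have e2 : Real.exp (-(q.kp * P / 16)) * Real.exp (q.kp * P / 64) ≤ 1 / 8 := by
    have h1 : Real.exp (-(q.kp * P / 16)) * Real.exp (q.kp * P / 64) =
        Real.exp (-(3 * (q.kp * P / 64))) := by
      rw [← Real.exp_add]; congr 1; ring
    rw [h1]
    have h2 : Real.exp (-(3 * (q.kp * P / 64))) ≤ Real.exp (-3) :=
      Real.exp_le_exp.2 (by linarith)
    have h3 : Real.exp (-3) ≤ 1 / 8 := by
      have h4 : (2 : ℝ) ≤ Real.exp 1 := by linarith [Real.add_one_le_exp (1 : ℝ)]
      have h5 : (8 : ℝ) ≤ Real.exp 3 := by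
        have h6 : Real.exp 3 = Real.exp 1 * Real.exp 1 * Real.exp 1 := by
          rw [← Real.exp_add, ← Real.exp_add]; norm_num
        rw [h6]
        calc (8 : ℝ) = 2 * 2 * 2 := by norm_num
          _ ≤ _ := by gcongr
      rw [Real.exp_neg, inv_le_comm₀ (Real.exp_pos _) (by norm_num)]
      norm_num
      linarith
    exact h2.trans h3
  have e3 : Real.exp (-(q.kp * P / 4)) ≤ Real.exp (-(q.kp * P / 8)) :=
    Real.exp_le_exp.2 (by linarith)
  have e4 : Real.exp (-(q.kp * P / 5)) ≤ Real.exp (-(q.kp * P / 8)) :=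
    Real.exp_le_exp.2 (by linarith)
  have e5 : Real.exp (-(P / 2)) ≤ Real.exp (-(q.kp * P / 8)) :=
    Real.exp_le_exp.2 (by linarith)
  have e6 : Real.exp (-(q.kp * P / 8)) * Real.exp (-(q.kp * P / 16)) *
      Real.exp (q.kp * P / 64) ≤ Real.exp (-(q.kp * P / 8)) * (1 / 8) := by
    rw [mul_assoc]
    exact mul_le_mul_of_nonneg_left e2 e0.le
  have hbe := hB.be
  have hsum : Err (QPF q k R P (fm P) Hh lam) M (c * P) (OBF q k R P)
        (2 * Real.exp (q.kp * P / 16)) (lam D / V) + 2 * Real.exp (-(q.kp * P / 4)) +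
      C1 (QPF q k R P (fm P) Hh lam) * (2 * Real.exp (q.kp * P / 16) *
        Real.exp (-(q.kp * P / 4))) ≤ q.be := by
    linarith
  have hcost := cost_le hq hB H hD hVp' hVM hsum
  rw [← hmd] at hmf ⊢
  linarith

end Vale.Agent.P042.H362
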