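import Vale.Agent.P042.H362.NumF
import Vale.Agent.P042.H599.StL
set_option autoImplicit false

/-!
P042 [D], power regime: the master inequality at the maximiser with all numbers.
-/

namespace Vale.Agent.P042.H362

open Polynomial Finset Vale.Agent.P042.H599 Vale.Agent.P042.H945 Vale.Agent.P042.H739
  Vale.Agent.P042.H972 Vale.Agent.P042.H383 Vale.Agent.P042.H74 Vale.Agent.P042.SS

variable {κ' : Type} {q : FP} {k R : ℕ} {κ c A P : ℝ} {fm : H599.Fam κ'} {h : ℤ[X]}
  {lam : ℕ → ℕ} {r : ℕ → ℤ} {Hh : ℕ → ℤ[X]} {N : ℕ} {A0 : Finset ℤ} {d : ℕ} {a : ℤ} {M : ℕ}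
  {x : ℕ → ℝ}

theorem omF_OB (S : Finset ℕ) : Om (QPF q k R P fm Hh lam) d S ≤ OBF q k R P :=
  Om_le_F (Q := QPF q k R P fm Hh lam) rfl (fun _ _ => pw'_nonneg _ _)
    (fun _ _ => pw'_nonneg _ _) d S

/-- the error term at one maximiser -/
def ErrQ (q : FP) (k R : ℕ) (c P : ℝ) (fm : H599.Fam κ') (Hh : ℕ → ℤ[X]) (lam : ℕ → ℕ) (M : ℕ) :
    Prop :=
  ∀ K r' : ℝ, Real.log K ≤ P →
    Err (QPF q k R P fm Hh lam) M (c * P) (OBF q k R P) K r' ≤ r' + Real.exp (-(q.kp * P / 5))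

theorem kp_le (hq : FPOk q k κ) : q.kp ≤ 1 / 2560 := by
  refine hq.kpg.trans ?_
  have h1 := hq.C11
  have h2 := hq.g1
  have h3 := hq.g0
  rw [div_le_div_iff₀ (by positivity) (by norm_num)]
  nlinarith

/-- everything for large `P` -/
theorem exists_num {fm : ℝ → H599.Fam κ'} (hq : FPOk q k κ) (hf : FamP q k R fm) (hc1 : c ≤ 1) :
    ∃ A P0 : ℝ, ∀ P : ℝ, P0 ≤ P → q.C1 + 1 ≤ A ∧ BigF q A P ∧ FamQ q k R A P (fm P) ∧
      ((WF q k R P).card : ℝ) ≤ P ^ A ∧
      ∀ h lam r Hh N A0 d a M x, HypF q k R κ c P (fm P) h lam r Hh N A0 d a M x →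
        ErrQ q k R c P (fm P) Hh lam M := by
  obtain ⟨A, Pf, hA1, hfam⟩ := hf.ev
  obtain ⟨Pb, hbig⟩ := exists_bigF hq (max A (q.C1 + 1))
  have hA1' : 1 ≤ max A (q.C1 + 1) := hA1.trans (le_max_left _ _)
  obtain ⟨Pe, herr⟩ := Err_PP hq.kp0 hA1'
  refine ⟨max A (q.C1 + 1), max Pf (max Pb Pe), fun P hP => ?_⟩
  have hPf : Pf ≤ P := (le_max_left _ _).trans hP
  have hPb : Pb ≤ P := (le_max_left _ _).trans ((le_max_right _ _).trans hP)
  have hPe : Pe ≤ P := (le_max_right _ _).trans ((le_max_right _ _).trans hP)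
  have hB := hbig P hPb
  obtain ⟨f1, f2, f3, f4⟩ := hfam P hPf
  have hP64 := hB.P64
  have hkp := kp_le hq
  have hkp0 := hq.kp0
  have hkP : q.kp * P ≤ P := by nlinarith
  have hle : P ^ A ≤ P ^ (max A (q.C1 + 1)) :=
    Real.rpow_le_rpow_of_exponent_le (by linarith) (le_max_left _ _)
  have hcard := WF_card (k := k) (R := R) hB hq.C11
  refine ⟨le_max_right _ _, hB, ⟨f1, f2, fun i hi => (f3 i hi).trans hle, f4⟩, hcard, ?_⟩
  intro h lam r Hh N A0 d a M x H K r' hK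
  have hkP0 : 0 ≤ q.kp * P := by positivity
  refine herr P hPe κ' (fm P) (MmP P) f1 (WF q k R P) (pw' q.g) _ lam _ (q.kp * P) _ hcard
    (fun p hp => ?_) (fun i hi => (f3 i hi).trans hle) (fun p hp => ?_) (fun i hi => ?_) le_rfl
    hkP hB.E1 M (c * P) (OBF q k R P) K r' H.mx.ok (by nlinarith) H.hi (OBF_le hq hB) hK
  · exact rneg_le_one (WF_prime hB hp).one_le hq.g0.le
  · have := WF_log hB hp
    linarith
  · have := f4 i hi
    linarith

/-! ### elementary exponentials -/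

theorem exp_small {D0 : ℝ} (hD : 64 ≤ D0) : Real.exp (-(D0 / 16)) ≤ 1 / 16 := by
  have h1 : (2 : ℝ) ≤ Real.exp 1 := by linarith [Real.add_one_le_exp (1 : ℝ)]
  have h2 : (16 : ℝ) ≤ Real.exp 4 := by
    have h3 : Real.exp 4 = Real.exp 1 * Real.exp 1 * Real.exp 1 * Real.exp 1 := by
      rw [← Real.exp_add, ← Real.exp_add, ← Real.exp_add]; norm_num
    rw [h3]
    calc (16 : ℝ) = 2 * 2 * 2 * 2 := by norm_num
      _ ≤ _ := by gcongr
  have h3 : Real.exp 4 ≤ Real.exp (D0 / 16) := Real.exp_le_exp.2 (by linarith)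
  rw [Real.exp_neg, inv_le_comm₀ (Real.exp_pos _) (by norm_num)]
  norm_num
  linarith

theorem four_le_exp {t : ℝ} (ht : 4 ≤ t) : 4 ≤ Real.exp t := by
  have h1 := Real.add_one_le_exp t
  linarith

/-- lengths: `2 Mm lam D ≤ V` and `lam D / V ≤ exp (-P/2)` -/
theorem len_num (H : HypF q k R κ c P fm h lam r Hh N A0 d a M x) (hP : 64 ≤ P) {D : ℕ}
    (hD : 1 ≤ D) (hDk : k * Real.log D ≤ P / 16) {V : ℕ} (hV : Real.exp (3 / 4 * P) ≤ V) :
    2 * MmP P * lam D ≤ V ∧ (lam D : ℝ) / V ≤ Real.exp (-(P / 2)) := by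
  obtain ⟨h1, h2⟩ := H.lamle hD
  have hlp : (0 : ℝ) < lam D := by exact_mod_cast h1
  have h3 : (lam D : ℝ) ≤ Real.exp (P / 16) := by
    rw [← Real.log_le_iff_le_exp hlp]
    linarith
  have hV0 : (0 : ℝ) < V := lt_of_lt_of_le (Real.exp_pos _) hV
  constructor
  · have h4 : (2 * MmP P * lam D : ℝ) ≤ 4 * Real.exp (P / 4) * Real.exp (P / 16) :=
      mul_le_mul (Mm4 (by linarith)) h3 hlp.le (by positivity)
    have h5 : 4 * Real.exp (P / 4) * Real.exp (P / 16) ≤ Real.exp (3 / 4 * P) := by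
      calc 4 * Real.exp (P / 4) * Real.exp (P / 16)
          ≤ Real.exp 4 * Real.exp (P / 4) * Real.exp (P / 16) := by
            gcongr
            exact four_le_exp le_rfl
        _ = Real.exp (4 + P / 4 + P / 16) := by rw [Real.exp_add, Real.exp_add]
        _ ≤ Real.exp (3 / 4 * P) := Real.exp_le_exp.2 (by linarith)
    have h6 := h4.trans (h5.trans hV)
    exact_mod_cast h6
  · rw [div_le_iff₀ hV0]
    calc (lam D : ℝ) ≤ Real.exp (P / 16) := h3
      _ ≤ Real.exp (-(P / 2)) * Real.exp (3 / 4 * P) := by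
          rw [← Real.exp_add]
          exact Real.exp_le_exp.2 (by linarith)
      _ ≤ Real.exp (-(P / 2)) * V := mul_le_mul_of_nonneg_left hV (Real.exp_pos _).le

/-- **the numbers of the densities** -/
theorem dnF (hq : FPOk q k κ) (hκ8 : κ ≤ 1 / 8) (hB : BigF q A P)
    (hf : FamQ q k R A P fm) (H : HypF q k R κ c P fm h lam r Hh N A0 d a M x)
    (hE : ErrQ q k R c P fm Hh lam M) :
    DN (QPF q k R P fm Hh lam) d M (c * P) (OBF q k R P) (Real.exp (q.kp * P / 16))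
      (Real.exp (-(q.kp * P / 8))) (omN q) (alN q k lam (Real.exp (-(q.kp * P / 8)))) := by
  have hP := hB.P64
  have hD := hB.D64
  have hk1 : (1 : ℝ) ≤ k := by exact_mod_cast (by have := H.k2; omega : 1 ≤ k)
  have hkk : k * q.kp ≤ 1 := by
    have h1 := hq.kpk
    rw [le_div_iff₀ (by linarith)] at h1
    linarith
  have hkp := kp_le hq
  have hMge := H.M_ge hκ8 (by linarith)
  have hkP : q.kp * P ≤ P / 2560 := by nlinarith
  have hq1 : ∀ m : ℕ, 1 ≤ m → (m : ℝ) ≤ Real.exp (q.kp * P / 16) →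
      k * Real.log m ≤ P / 16 := by
    intro m hm hm1
    have h1 : Real.log m ≤ q.kp * P / 16 := by
      rw [Real.log_le_iff_le_exp (by exact_mod_cast hm)]
      exact hm1
    have h2 : k * Real.log m ≤ k * (q.kp * P / 16) := mul_le_mul_of_nonneg_left h1 (by linarith)
    have h3 : k * (q.kp * P / 16) = (k * q.kp) * P / 16 := by ring
    have h4 : (k * q.kp) * P ≤ 1 * P := mul_le_mul_of_nonneg_right hkk (by linarith)
    linarith
  have hM34 : Real.exp (3 / 4 * P) ≤ M := le_trans (Real.exp_le_exp.2 (by linarith)) hMge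
  refine ⟨omF_OB, ?_, ?_, ?_, Real.one_le_exp (by linarith), ?_, ?_, ?_⟩
  · intro p _ S
    exact omF_le (fun p => pw'_nonneg _ p) (fun p => pw'_nonneg _ p) p d S
  · intro p hp
    have h1 := H103.c4_PP' (c := pw' q.g) (om := omF (pw' q.g) (pw' q.gr) (capP q.gc) Hh)
      (lam := lam) (eta := q.be / (4 * k)) (D0 := q.kp * P) (E1 := 2 * P ^ (1 - q.g / 5))
      hf.ok (fun _ hp => WF_prime hB hp) hf.sub hp
    refine h1.trans ?_
    have h2 := hq.K1 p ((mem_WF (by linarith : 0 ≤ P)).1 hp).2.1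
    unfold pw'
    linarith
  · intro p _
    exact le_rfl
  · have h1 : Real.exp (q.kp * P / 16) * Real.exp (-(q.kp * P / 4)) ≤
        Real.exp (-(q.kp * P / 16)) := by
      rw [← Real.exp_add]
      exact Real.exp_le_exp.2 (by linarith)
    have h2 := exp_small hD
    have h3 : (QPF q k R P fm Hh lam).D0 = q.kp * P := rfl
    rw [h3]
    linarith
  · intro m hm hm1
    exact (len_num H hP hm (hq1 m hm hm1) (V := M) hM34).1
  · intro m hm hm1
    have h1 := (len_num H hP hm (hq1 m hm hm1) (V := M) hM34).2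
    have h2 : Real.log (4 * Real.exp (q.kp * P / 16)) ≤ P := by
      rw [Real.log_mul (by norm_num) (Real.exp_pos _).ne', Real.log_exp]
      have := Real.log_le_sub_one_of_pos (show (0 : ℝ) < 4 by norm_num)
      linarith
    have h3 := hE (4 * Real.exp (q.kp * P / 16)) (lam m / M) h2
    have h4 : (QPF q k R P fm Hh lam).lam = lam := rfl
    have h5 : (QPF q k R P fm Hh lam).D0 = q.kp * P := rfl
    rw [h4, h5]
    have h6 : Real.exp (q.kp * P / 16) * Real.exp (-(q.kp * P / 4)) ≤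
        Real.exp (-(q.kp * P / 8)) * Real.exp (-(q.kp * P / 16)) := by
      rw [← Real.exp_add, ← Real.exp_add]
      exact Real.exp_le_exp.2 (by linarith)
    have h7 : Real.exp (-(q.kp * P / 5)) ≤
        Real.exp (-(q.kp * P / 8)) * Real.exp (-(q.kp * P / 16)) := by
      rw [← Real.exp_add]
      exact Real.exp_le_exp.2 (by linarith)
    have h8 : Real.exp (-(P / 2)) ≤ Real.exp (-(q.kp * P / 8)) * Real.exp (-(q.kp * P / 16)) := by
      rw [← Real.exp_add]
      exact Real.exp_le_exp.2 (by linarith)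
    have h9 := exp_small hD
    have h10 : Real.exp (-(q.kp * P / 8)) * Real.exp (-(q.kp * P / 16)) ≤
        Real.exp (-(q.kp * P / 8)) * (1 / 16) :=
      mul_le_mul_of_nonneg_left h9 (Real.exp_pos _).le
    have h11 := Real.exp_pos (-(q.kp * P / 8))
    linarith

end Vale.Agent.P042.H362
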