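import Vale.Agent.P042.H362.StFin
set_option autoImplicit false

/-!
P042 [D], power regime: the numbers of the state theorem.
-/

namespace Vale.Agent.P042.H362

open Polynomial Finset Vale.Agent.P042.H599 Vale.Agent.P042.H945 Vale.Agent.P042.H739
  Vale.Agent.P042.H972 Vale.Agent.P042.H383 Vale.Agent.P042.H74 Vale.Agent.P042.SS

/-- the eventual inequalities -/
structure BigF (q : FP) (A P : ℝ) : Prop where
  P64 : 64 ≤ P
  D64 : 64 ≤ q.kp * P
  pw : P ^ q.C1 ≤ Real.exp (q.kp * P / 64)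
  pa : P ^ A ≤ Real.exp (q.kp * P / 64)
  E1 : 2 * P ^ (1 - q.g / 5) ≤ P
  be : Real.exp (-(q.kp * P / 8)) ≤ q.be / 8

theorem rpow_le_expE (s : ℝ) {c : ℝ} (hc : 0 < c) :
    ∀ᶠ P : ℝ in Filter.atTop, P ^ s ≤ Real.exp (c * P) := by
  have h1 := (tendsto_rpow_mul_exp_neg_mul_atTop_nhds_zero s c hc).eventually_lt_const
    (show (0 : ℝ) < 1 by norm_num)
  filter_upwards [h1] with P hP
  have h2 := Real.exp_pos (c * P)
  have h3 : P ^ s * Real.exp (-c * P) * Real.exp (c * P) ≤ 1 * Real.exp (c * P) :=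
    mul_le_mul_of_nonneg_right hP.le h2.le
  rw [mul_assoc, ← Real.exp_add, neg_mul, neg_add_cancel, Real.exp_zero, mul_one, one_mul] at h3
  exact h3

theorem exists_bigF {q : FP} {k : ℕ} {κ : ℝ} (hq : FPOk q k κ) (A : ℝ) :
    ∃ P0 : ℝ, ∀ P : ℝ, P0 ≤ P → BigF q A P := by
  have hkp := hq.kp0
  have hg := hq.g0
  have e1 : ∀ᶠ P : ℝ in Filter.atTop, 64 ≤ P := Filter.eventually_ge_atTop _
  have e2 : ∀ᶠ P : ℝ in Filter.atTop, 64 / q.kp ≤ P := Filter.eventually_ge_atTop _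
  have e3 := rpow_le_expE q.C1 (show 0 < q.kp / 64 by positivity)
  have e4 := rpow_le_expE A (show 0 < q.kp / 64 by positivity)
  have e5 : ∀ᶠ P : ℝ in Filter.atTop, 2 ≤ P ^ (q.g / 5) :=
    (tendsto_rpow_atTop (by positivity)).eventually_ge_atTop _
  have e6 : ∀ᶠ P : ℝ in Filter.atTop, 8 / q.be ≤ P := Filter.eventually_ge_atTop _
  have e7 := rpow_le_expE 1 (show 0 < q.kp / 8 by positivity)
  obtain ⟨P0, hP0⟩ := Filter.eventually_atTop.1
    (e1.and (e2.and (e3.and (e4.and (e5.and (e6.and e7))))))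
  refine ⟨P0, fun P hP => ?_⟩
  obtain ⟨h1, h2, h3, h4, h5, h6, h7⟩ := hP0 P hP
  have hP1 : 0 < P := by linarith
  rw [div_le_iff₀ hkp] at h2
  refine ⟨h1, by linarith, h3.trans (le_of_eq (by congr 1; ring)),
    h4.trans (le_of_eq (by congr 1; ring)), ?_, ?_⟩
  · have h8 : P ^ (1 - q.g / 5) * P ^ (q.g / 5) = P := by
      rw [← Real.rpow_add hP1]; simp
    have h9 : 0 < P ^ (1 - q.g / 5) := Real.rpow_pos_of_pos hP1 _
    calc 2 * P ^ (1 - q.g / 5) = P ^ (1 - q.g / 5) * 2 := by ring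
      _ ≤ P ^ (1 - q.g / 5) * P ^ (q.g / 5) := mul_le_mul_of_nonneg_left h5 h9.le
      _ = P := h8
  · rw [Real.rpow_one] at h7
    have hbe := hq.be0
    have h8 : 8 / q.be ≤ Real.exp (q.kp * P / 8) :=
      (h6.trans h7).trans (le_of_eq (by congr 1; ring))
    rw [Real.exp_neg, inv_le_comm₀ (Real.exp_pos _) (by positivity)]
    refine le_trans (le_of_eq ?_) h8
    rw [inv_div]

/-! ### the primes -/

section primes

variable {q : FP} {k R : ℕ} {κ A P : ℝ}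

/-- the bound of the support terms -/
noncomputable def omN (q : FP) (p : ℕ) : ℝ := pw' q.g p + pw' q.gr p * capP q.gc p

theorem omN_nonneg (p : ℕ) : 0 ≤ omN q p :=
  add_nonneg (pw'_nonneg _ _) (mul_nonneg (pw'_nonneg _ _) (capP_nonneg _ _))

/-- the total bound of the support terms -/
noncomputable def OBF (q : FP) (k R : ℕ) (P : ℝ) : ℝ := ∑ p ∈ WF q k R P, omN q p

theorem WF_le (hB : BigF q A P) {p : ℕ} (hp : p ∈ WF q k R P) :
    (p : ℝ) ≤ Real.exp (q.kp * P / 64) := by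
  have := hB.P64
  exact ((mem_WF (by linarith)).1 hp).2.2.2.2.trans hB.pw

theorem WF_log (hB : BigF q A P) {p : ℕ} (hp : p ∈ WF q k R P) :
    Real.log p ≤ q.kp * P / 64 := by
  have := hB.P64
  have h1 := ((mem_WF (by linarith : 0 ≤ P)).1 hp).1.pos
  rw [Real.log_le_iff_le_exp (by exact_mod_cast h1)]
  exact WF_le hB hp

/-- lower bound of the powers -/
theorem WF_pow (hB : BigF q A P) {p : ℕ} (hp : p ∈ WF q k R P) {s : ℝ} (hs : 0 ≤ s) :
    Real.exp (-(s * (q.kp * P / 64))) ≤ (p : ℝ) ^ (-s) := by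
  have := hB.P64
  have h1 := ((mem_WF (by linarith : 0 ≤ P)).1 hp).1.pos
  have hp0 : (0 : ℝ) < p := by exact_mod_cast h1
  rw [Real.rpow_def_of_pos hp0]
  refine Real.exp_le_exp.2 ?_
  have h2 := mul_le_mul_of_nonneg_left (WF_log hB hp) hs
  linarith

theorem WF_card (hB : BigF q (max A (q.C1 + 1)) P) (hC : 1 ≤ q.C1) :
    ((WF q k R P).card : ℝ) ≤ P ^ (max A (q.C1 + 1)) := by
  have hP := hB.P64
  have h1 : (WF q k R P).card ≤ ⌊P ^ q.C1⌋₊ + 1 := by
    unfold WF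
    exact (card_filter_le _ _).trans (by simp)
  have h2 : ((WF q k R P).card : ℝ) ≤ P ^ q.C1 + 1 := by
    calc ((WF q k R P).card : ℝ) ≤ ((⌊P ^ q.C1⌋₊ + 1 : ℕ) : ℝ) := by exact_mod_cast h1
      _ = (⌊P ^ q.C1⌋₊ : ℝ) + 1 := by push_cast; ring
      _ ≤ P ^ q.C1 + 1 := by
          have := Nat.floor_le (Real.rpow_nonneg (by linarith : 0 ≤ P) q.C1)
          linarith
  have h3 : 1 ≤ P ^ q.C1 := Real.one_le_rpow (by linarith) (by linarith)
  have h4 : P ^ q.C1 * 2 ≤ P ^ (q.C1 + 1) := by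
    rw [Real.rpow_add (by linarith), Real.rpow_one]
    exact mul_le_mul_of_nonneg_left (by linarith) (by linarith)
  have h5 : P ^ (q.C1 + 1) ≤ P ^ (max A (q.C1 + 1)) :=
    Real.rpow_le_rpow_of_exponent_le (by linarith) (le_max_right _ _)
  linarith

/-- the support term at a prime of the state -/
theorem omN_le (hq : FPOk q k κ) {p : ℕ} (hp : q.K0 < p) :
    omN q p ≤ (p : ℝ) ^ (-q.ga) / 4 := hq.K2 p hp

theorem rneg_le_one {p : ℕ} (hp : 1 ≤ p) {s : ℝ} (hs : 0 ≤ s) : (p : ℝ) ^ (-s) ≤ 1 :=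
  Real.rpow_le_one_of_one_le_of_nonpos (by exact_mod_cast hp) (by linarith)

theorem OBF_le (hq : FPOk q k κ) (hB : BigF q (max A (q.C1 + 1)) P) :
    OBF q k R P ≤ P ^ (2 * max A (q.C1 + 1)) := by
  have hP := hB.P64
  have h1 : OBF q k R P ≤ ∑ _p ∈ WF q k R P, (1 : ℝ) := by
    refine sum_le_sum fun p hp => ?_
    obtain ⟨g1, g2, _⟩ := (mem_WF (by linarith : 0 ≤ P)).1 hp
    have h2 := omN_le hq g2
    have h3 := rneg_le_one g1.one_le hq.ga0.le
    linarith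
  have h2 := WF_card (k := k) (R := R) hB hq.C11
  rw [Finset.sum_const, nsmul_eq_mul, mul_one] at h1
  refine h1.trans (h2.trans (Real.rpow_le_rpow_of_exponent_le (by linarith) ?_))
  have : q.C1 + 1 ≤ max A (q.C1 + 1) := le_max_right _ _
  have := hq.C11
  linarith

end primes

/-! ### the maximiser -/

section mx

variable {κ' : Type} {q : FP} {k R : ℕ} {κ c A P : ℝ} {fm : H599.Fam κ'} {h : ℤ[X]}
  {lam : ℕ → ℕ} {r : ℕ → ℤ} {Hh : ℕ → ℤ[X]} {N : ℕ} {A0 : Finset ℤ} {d : ℕ} {a : ℤ} {M : ℕ}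
  {x : ℕ → ℝ}

/-- properties of the families at one value of `P` -/
structure FamQ (q : FP) (k R : ℕ) (A P : ℝ) (fm : H599.Fam κ') : Prop where
  ok : FamOk fm (MmP P)
  sub : ∀ i ∈ fm.F, fm.W i ⊆ WF q k R P
  K : ∀ i ∈ fm.F, (fm.K i : ℝ) ≤ P ^ A
  B : ∀ i ∈ fm.F, Real.log (fm.B i) ≤ q.kp * P / 16

theorem WF_prime (hB : BigF q A P) {p : ℕ} (hp : p ∈ WF q k R P) : p.Prime := by
  have := hB.P64
  exact ((mem_WF (by linarith : 0 ≤ P)).1 hp).1

theorem HypF.lamle (H : HypF q k R κ c P fm h lam r Hh N A0 d a M x) {D : ℕ} (hD : 1 ≤ D) :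
    1 ≤ lam D ∧ Real.log (lam D) ≤ k * Real.log D := by
  have h1 := H.aux.lam_pos D hD
  refine ⟨h1, ?_⟩
  have h2 := H.aux.lam_le D hD
  rw [H.deg] at h2
  rw [← Real.log_pow]
  exact Real.log_le_log (by exact_mod_cast h1) (by exact_mod_cast h2)

theorem HypF.M_ge (H : HypF q k R κ c P fm h lam r Hh N A0 d a M x) (hκ8 : κ ≤ 1 / 8)
    (hP : 0 ≤ P) : Real.exp (7 / 8 * P) ≤ M := by
  have hM : (0 : ℝ) < M := by exact_mod_cast H.mx.mx.1.law.pos
  rw [← Real.le_log_iff_exp_le hM]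
  have h1 := H.lo
  nlinarith

theorem HypF.M_pos (H : HypF q k R κ c P fm h lam r Hh N A0 d a M x) : (0 : ℝ) < M := by
  exact_mod_cast H.mx.mx.1.law.pos

theorem Mm4 (hP : 0 ≤ P) : 2 * (MmP P : ℝ) ≤ 4 * Real.exp (P / 4) := by
  have := MmP_le P hP
  linarith

theorem sqQ (hB : BigF q A P) (hf : FamQ q k R A P fm) : SqF (QPF q k R P fm Hh lam) :=
  H103.sqF_PP (fun _ hp => WF_prime hB hp) hf.sub

/-- the pin cost at one prime -/
noncomputable def alN (q : FP) (k : ℕ) (lam : ℕ → ℕ) (t2 : ℝ) (p : ℕ) : ℝ :=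
  2 * (q.be / (4 * k) * Real.log (lam p) + omN q p + t2)

end mx

end Vale.Agent.P042.H362
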