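import Vale.Agent.P042.H362.MfE
set_option autoImplicit false

/-!
P042 [D], power regime: the field `ql` (large cells) of the state.
-/

namespace Vale.Agent.P042.H362

open Polynomial Finset Vale.Agent.P042.H599 Vale.Agent.P042.H945 Vale.Agent.P042.H739
  Vale.Agent.P042.H972 Vale.Agent.P042.H383 Vale.Agent.P042.H74 Vale.Agent.P042.SS

/-- the moduli of the functional are bounded -/
theorem mQ_le {κ' : Type} {q : FP} {k R : ℕ} {A P : ℝ} {fm : H599.Fam κ'} {Hh : ℕ → ℤ[X]}
    {lam : ℕ → ℕ} (hB : BigF q A P) (hf : FamQ q k R A P fm) :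
    ∀ i ∈ (QPF q k R P fm Hh lam).I,
      (((QPF q k R P fm Hh lam).m i : ℕ) : ℝ) ≤ Real.exp (q.kp * P / 16) := by
  intro i hi
  have hD64 := hB.D64
  rcases Finset.mem_disjSum.1 hi with ⟨p, hp, rfl⟩ | ⟨j, hj, rfl⟩
  · exact (WF_le hB hp).trans (Real.exp_le_exp.2 (by linarith))
  · rw [mem_fI] at hj
    obtain ⟨j1, j2, j3⟩ := hj
    have h1 := hf.B j.1 j1
    have h2 := hf.ok.hB j.1 j1
    have h3 : (0 : ℝ) < fm.B j.1 := by exact_mod_cast h2
    rw [Real.log_le_iff_le_exp h3] at h1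
    refine le_trans ?_ h1
    exact_mod_cast j3

/-- **block 3: large cells** -/
theorem qlEv : QlEv := by
  classical
  intro κ' q k R κ c fm hq hf hR hκ hκ8 hc hc1
  obtain ⟨A, P0, hnum⟩ := exists_num hq hf hc1
  refine ⟨P0, fun P hP h lam r Hh N A0 d a M x H hAt => ?_⟩
  obtain ⟨hA, hB, hfq, hcard, herr⟩ := hnum P hP
  have hE := herr h lam r Hh N A0 d a M x H
  have hdn := dnF hq hκ8 hB hfq H hE
  have hsq : SqF (QPF q k R P (fm P) Hh lam) := sqQ hB hfq
  have hP := hB.P64
  have hD64 := hB.D64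
  have hkp := kp_le hq
  have hkp0 := hq.kp0
  have hkP : q.kp * P ≤ P / 2560 := by nlinarith
  have hk1 : (1 : ℝ) ≤ k := by exact_mod_cast (by have := H.k2; omega : 1 ≤ k)
  have hMp := H.M_pos
  intro D w u v y hD hlD hu hv hMV hm0 hthick hy hy0 hyK
  obtain ⟨V, hVd⟩ : ∃ V, V = v + 1 - u := ⟨_, rfl⟩
  rw [← hVd] at hMV hthick ⊢
  obtain ⟨m, hmd⟩ : ∃ m, m = ms (core x M (q.kp * P)) M (cl D w u v) := ⟨_, rfl⟩
  have hD0' : (0 : ℝ) < D := by exact_mod_cast hD
  have hVe := cell_num hq hκ8 hB H hMV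
  have hVp : (0 : ℝ) < V := lt_of_lt_of_le (Real.exp_pos _) hVe
  have hVp' : 0 < V := by exact_mod_cast hVp
  have hVM : V ≤ M := by omega
  have hlD16 : Real.log D ≤ P / 16 := by
    refine hlD.trans ?_
    rw [div_le_div_iff_of_pos_left (by linarith) (by positivity) (by norm_num)]
    linarith
  have hDk : k * Real.log D ≤ P / 16 := by
    have h1 : k * Real.log D ≤ k * (P / (16 * k)) := mul_le_mul_of_nonneg_left hlD (by linarith)
    have h2 : k * (P / (16 * k)) = P / 16 := by field_simp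
    linarith
  obtain ⟨hlen1, hlen2⟩ := len_num H hP hD hDk hVe
  -- the density of the cell
  have hmM : 1 / m ≤ Real.exp (2 * (q.kp * P / 64) + P / 16) := by
    rw [← hmd] at hthick hm0
    rw [div_le_iff₀ hm0]
    have h1 : Real.exp (q.kp * P / 64) * (Real.exp (-(q.kp * P / 64)) * V) ≤
        Real.exp (q.kp * P / 64) * (D * m * M) :=
      mul_le_mul_of_nonneg_left hthick (Real.exp_pos _).le
    rw [← mul_assoc, ← Real.exp_add, add_neg_cancel, Real.exp_zero, one_mul] at h1
    have hDe : (D : ℝ) ≤ Real.exp (P / 16) := by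
      rw [← Real.log_le_iff_le_exp hD0']
      exact hlD16
    have h2 : Real.exp (q.kp * P / 64) * (D * m * M) ≤
        Real.exp (q.kp * P / 64) * (Real.exp (P / 16) * m *
          (Real.exp (q.kp * P / 64) * V)) := by
      gcongr
    have h3 : Real.exp (q.kp * P / 64) * (Real.exp (P / 16) * m *
          (Real.exp (q.kp * P / 64) * V)) =
        Real.exp (2 * (q.kp * P / 64) + P / 16) * m * V := by
      have : Real.exp (2 * (q.kp * P / 64) + P / 16) = Real.exp (q.kp * P / 64) *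
          Real.exp (q.kp * P / 64) * Real.exp (P / 16) := by
        rw [← Real.exp_add, ← Real.exp_add]; congr 1; ring
      rw [this]; ring
    have h4 : 1 * (V : ℝ) ≤ Real.exp (2 * (q.kp * P / 64) + P / 16) * m * V := by
      rw [one_mul]
      linarith
    exact le_of_mul_le_mul_right h4 hVp
  have hK0 : 2 * Real.exp (q.kp * P / 64) / m ≤ 2 * Real.exp (P / 2) := by
    have h1 : 2 * Real.exp (q.kp * P / 64) / m = 2 * Real.exp (q.kp * P / 64) * (1 / m) := by ring
    rw [h1]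
    calc 2 * Real.exp (q.kp * P / 64) * (1 / m)
        ≤ 2 * Real.exp (q.kp * P / 64) * Real.exp (2 * (q.kp * P / 64) + P / 16) :=
          mul_le_mul_of_nonneg_left hmM (by positivity)
      _ = 2 * Real.exp (q.kp * P / 64 + (2 * (q.kp * P / 64) + P / 16)) := by
          rw [mul_assoc, ← Real.exp_add]
      _ ≤ 2 * Real.exp (P / 2) :=
          mul_le_mul_of_nonneg_left (Real.exp_le_exp.2 (by linarith)) (by norm_num)
  have hsl := stL (Q := QPF q k R P (fm P) Hh lam) H.mx hsq hdn (mQ_le hB hfq) (D := D) (w := w)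
    (u := u) (v := v) hD hu hv (by rw [← hVd]; exact hlen1) (Dm := q.kp * P / 64) (by linarith)
    (show 8 * (q.kp * P / 64) + 4 ≤ q.kp * P by linarith) hm0 (by rw [← hVd]; exact hthick) hy hy0
    hyK (K0 := 2 * Real.exp (P / 2)) (by
      have := hK0
      rw [hmd] at this
      exact this)
    (I0 := (WF q k R P).disjSum ∅) (Finset.disjSum_mono (Finset.Subset.refl _)
      (Finset.empty_subset _))
    (kp := Sum.elim (fun p => (p : ℝ) ^ (-q.g) / 4) (fun _ => 1)) (by
      intro i hi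
      rcases Finset.mem_disjSum.1 hi with ⟨p, hp, rfl⟩ | ⟨j, hj, rfl⟩
      · have hp0 : (0 : ℝ) < p := by exact_mod_cast (WF_prime hB hp).pos
        have := Real.rpow_pos_of_pos hp0 (-q.g)
        show 0 < (p : ℝ) ^ (-q.g) / 4
        positivity
      · exact absurd hj (Finset.notMem_empty _)) (by
      intro i hi
      rcases Finset.mem_disjSum.1 hi with ⟨p, hp, rfl⟩ | ⟨j, hj, rfl⟩
      · intro b _ hb0
        have hp0 : (0 : ℝ) < p := by exact_mod_cast (WF_prime hB hp).pos
        show (p : ℝ) ^ (-q.g) / 4 ≤ p * cm (core x M (q.kp * P)) 1 M p b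
        rcases hAt.atom p hp b with h1 | h1
        · exact absurd h1 hb0
        · rw [div_le_iff₀ (by positivity)] at h1
          linarith
      · exact absurd hj (Finset.notMem_empty _))
  rw [← hVd] at hsl
  have hlogK : Real.log (2 * Real.exp (P / 2)) ≤ P := by
    rw [Real.log_mul (by norm_num) (Real.exp_pos _).ne', Real.log_exp]
    have := Real.log_le_sub_one_of_pos (show (0 : ℝ) < 2 by norm_num)
    linarith
  have hErr := hE (2 * Real.exp (P / 2)) (lam D / V) hlogK
  have hD0 : (QPF q k R P (fm P) Hh lam).D0 = q.kp * P := rfl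
  have heta : (QPF q k R P (fm P) Hh lam).eta = q.be / (4 * k) := rfl
  have hlam : (QPF q k R P (fm P) Hh lam).lam = lam := rfl
  have hW : (QPF q k R P (fm P) Hh lam).W = WF q k R P := rfl
  rw [hD0, heta, hlam, hW] at hsl
  -- the two sums over the primes
  have s1 : ∑ i ∈ (WF q k R P).disjSum ∅ with
      Nat.Coprime ((QPF q k R P (fm P) Hh lam).m i) D, (QPF q k R P (fm P) Hh lam).c i *
        klc y (core x M (q.kp * P)) M ((QPF q k R P (fm P) Hh lam).m i) =
      ∑ p ∈ WF q k R P with Nat.Coprime p D, (p : ℝ) ^ (-q.g) *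
        klc y (core x M (q.kp * P)) M p := by
    rw [sum_filter, sum_disjSum, sum_filter, sum_empty, add_zero]
    rfl
  have s2 : ∑ i ∈ (WF q k R P).disjSum ∅, (QPF q k R P (fm P) Hh lam).c i *
      (((QPF q k R P (fm P) Hh lam).m i : ℝ) /
        Sum.elim (fun p : ℕ => (p : ℝ) ^ (-q.g) / 4) (fun _ => 1) i) ≤
      4 * (Real.exp (q.kp * P / 64) * Real.exp (q.kp * P / 64)) := by
    rw [sum_disjSum, sum_empty, add_zero]
    have h1 : ∀ p ∈ WF q k R P, (QPF q k R P (fm P) Hh lam).c (Sum.inl p) *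
        (((QPF q k R P (fm P) Hh lam).m (Sum.inl p) : ℝ) /
          Sum.elim (fun p : ℕ => (p : ℝ) ^ (-q.g) / 4) (fun _ => 1)
            (Sum.inl p : ℕ ⊕ (Σ _ : κ', Finset ℕ))) ≤ 4 * Real.exp (q.kp * P / 64) := by
      intro p hp
      have hp0 : (0 : ℝ) < p := by exact_mod_cast (WF_prime hB hp).pos
      have h2 := Real.rpow_pos_of_pos hp0 (-q.g)
      show (p : ℝ) ^ (-q.g) * ((p : ℝ) / ((p : ℝ) ^ (-q.g) / 4)) ≤ 4 * Real.exp (q.kp * P / 64)
      have h3 : (p : ℝ) ^ (-q.g) * ((p : ℝ) / ((p : ℝ) ^ (-q.g) / 4)) = 4 * p := by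
        field_simp
      rw [h3]
      have := WF_le hB hp
      linarith
    refine (sum_le_sum h1).trans ?_
    rw [sum_const, nsmul_eq_mul]
    have h2 := hcard.trans hB.pa
    calc ((WF q k R P).card : ℝ) * (4 * Real.exp (q.kp * P / 64))
        ≤ Real.exp (q.kp * P / 64) * (4 * Real.exp (q.kp * P / 64)) :=
          mul_le_mul_of_nonneg_right h2 (by positivity)
      _ = _ := by ring
  have s3 : (∑ i ∈ (WF q k R P).disjSum ∅, (QPF q k R P (fm P) Hh lam).c i *
      (((QPF q k R P (fm P) Hh lam).m i : ℝ) /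
        Sum.elim (fun p : ℕ => (p : ℝ) ^ (-q.g) / 4) (fun _ => 1) i)) *
        Real.exp (-(q.kp * P / 4)) ≤
      4 * (Real.exp (-(q.kp * P / 8)) * Real.exp (-(q.kp * P / 16))) := by
    refine (mul_le_mul_of_nonneg_right s2 (Real.exp_pos _).le).trans ?_
    rw [mul_assoc]
    refine mul_le_mul_of_nonneg_left ?_ (by norm_num)
    rw [← Real.exp_add, ← Real.exp_add, ← Real.exp_add]
    exact Real.exp_le_exp.2 (by linarith)
  rw [s1] at hsl
  -- the errors
  have e1 := exp_small hD64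
  have e0 := Real.exp_pos (-(q.kp * P / 8))
  have e3 : Real.exp (-(q.kp * P / 4)) ≤ Real.exp (-(q.kp * P / 8)) :=
    Real.exp_le_exp.2 (by linarith)
  have e4 : Real.exp (-(q.kp * P / 5)) ≤ Real.exp (-(q.kp * P / 8)) :=
    Real.exp_le_exp.2 (by linarith)
  have e5 : Real.exp (-(P / 2)) ≤ Real.exp (-(q.kp * P / 8)) :=
    Real.exp_le_exp.2 (by linarith)
  have e6 : Real.exp (-(q.kp * P / 8)) * Real.exp (-(q.kp * P / 16)) ≤
      Real.exp (-(q.kp * P / 8)) * (1 / 16) := mul_le_mul_of_nonneg_left e1 e0.le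
  have hbe := hB.be
  have hsum : Err (QPF q k R P (fm P) Hh lam) M (c * P) (OBF q k R P)
        (2 * Real.exp (P / 2)) (lam D / V) + 2 * Real.exp (-(q.kp * P / 4)) +
      (∑ i ∈ (WF q k R P).disjSum ∅, (QPF q k R P (fm P) Hh lam).c i *
      (((QPF q k R P (fm P) Hh lam).m i : ℝ) /
        Sum.elim (fun p : ℕ => (p : ℝ) ^ (-q.g) / 4) (fun _ => 1) i)) *
        Real.exp (-(q.kp * P / 4)) ≤ q.be := by
    linarith
  have hcost := cost_le hq hB H hD hVp' hVM hsum
  rw [← hmd] at hsl ⊢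
  linarith

end Vale.Agent.P042.H362
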