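import Vale.Agent.P042.H362.StF
import Vale.Agent.P042.H362.St6
set_option autoImplicit false

/-!
P042 [D], power regime: `stateF` = STATE6 for the exported state `StF`, from the three blocks.
-/

namespace Vale.Agent.P042.H362

open Polynomial Finset Vale.Agent.P042.H599 Vale.Agent.P042.H945 Vale.Agent.P042.H739
  Vale.Agent.P042.H972 Vale.Agent.P042.H383 Vale.Agent.P042.H74 Vale.Agent.P042.SS

/-- the primes of `WF` -/
theorem mem_WF {q : FP} {k R : ℕ} {P : ℝ} (hP : 0 ≤ P) {p : ℕ} :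
    p ∈ WF q k R P ↔ p.Prime ∧ q.K0 < p ∧ R < p ∧ 2 * k < p ∧ (p : ℝ) ≤ P ^ q.C1 := by
  unfold WF
  rw [mem_filter, mem_range, Nat.lt_succ_iff, Nat.le_floor_iff (Real.rpow_nonneg hP _)]
  constructor
  · rintro ⟨h1, h2, h3⟩
    exact ⟨h2, lt_of_le_of_lt ((le_max_left _ _).trans (le_max_left _ _)) h3,
      lt_of_le_of_lt ((le_max_right _ _).trans (le_max_left _ _)) h3,
      lt_of_le_of_lt (le_max_right _ _) h3, h1⟩
  · rintro ⟨h1, h2, h3, h4, h5⟩
    exact ⟨h5, h1, max_lt (max_lt h2 h3) h4⟩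

/-- **STATE6 for the power regime**, from the three blocks -/
theorem stateF_of (hA : AtEv) (hM : MfEv) (hL : QlEv) {κ' : Type} (par : ℕ → ℕ → ℝ → FP)
    (fam : ℕ → ℕ → ℝ → ℝ → H599.Fam κ')
    (hpar : ∀ (k R : ℕ) (κ : ℝ), 2 ≤ k → 1 ≤ R → 0 < κ → κ ≤ 1 / 8 → FPOk (par k R κ) k κ)
    (hfam : ∀ (k R : ℕ) (κ : ℝ), 2 ≤ k → 1 ≤ R → 0 < κ → κ ≤ 1 / 8 →
      FamP (par k R κ) k R (fam k R κ)) : STATE6 (StF par fam) := by
  refine state6_c1 (fun k R κ => (par k R κ).kp) (fun k R κ => (par k R κ).be / (4 * k))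
    (fun k R κ P Hh lam => QPF (par k R κ) k R P (fam k R κ P) Hh lam) (FF6 par fam) ?_ ?_ ?_ ?_
  · intro k R κ hk hR hκ hκ8
    have hq := hpar k R κ hk hR hκ hκ8
    exact ⟨hq.kp0, hq.kpκ⟩
  · intro k R κ hk hR hκ hκ8
    have hq := hpar k R κ hk hR hκ hκ8
    have hk' : (0 : ℝ) < k := by exact_mod_cast (by omega : 0 < k)
    have := hq.be0
    positivity
  · intro h lam r Hh R hAux hdeg hpos κ hκ hκ8
    obtain ⟨k, hk⟩ : ∃ k, k = h.natDegree := ⟨_, rfl⟩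
    rw [← hk] at hdeg ⊢
    have hR1 : 1 ≤ R := hAux.hR
    obtain ⟨q, hqd⟩ : ∃ q, q = par k R κ := ⟨_, rfl⟩
    have hq := hpar k R κ hdeg hR1 hκ hκ8
    have hf := hfam k R κ hdeg hR1 hκ hκ8
    rw [← hqd] at hq hf
    obtain ⟨A, Pf, _, hfam'⟩ := hf.ev
    obtain ⟨Po, hok⟩ := ok_QP hq.C11 k hq.g0 hq.g1 hq.cr
    have hk1 : (1 : ℝ) ≤ k := by exact_mod_cast (by omega : 1 ≤ k)
    refine ⟨2, q.g / 5, max Pf (max Po 2), by norm_num, by have := hq.g0; positivity,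
      fun P hP => ?_⟩
    have hPf : Pf ≤ P := (le_max_left _ _).trans hP
    have hPo : Po ≤ P := (le_max_left _ _).trans ((le_max_right _ _).trans hP)
    have hP2 : 2 ≤ P := (le_max_right _ _).trans ((le_max_right _ _).trans hP)
    have hP0 : 0 < P := by linarith
    rw [← hqd]
    refine ⟨?_, rfl, rfl, le_rfl, rfl, MmP_le_exp hP2⟩
    refine hok P hPo κ' (fam k R κ P) h lam r Hh R hAux (by omega) hk.symm (WF q k R P) ?_ (MmP P)
      (hfam' P hPf).1 (MmP_ge P) (q.be / (4 * k)) (q.kp * P) ?_ ?_ ?_ ?_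
    · intro p hp
      obtain ⟨h1, h2, h3, h4, h5⟩ := (mem_WF hP0.le).1 hp
      exact ⟨h1, h3, h4.le, h5⟩
    · have := hq.be0
      positivity
    · rw [div_le_one (by positivity)]
      have h1 := hq.beb
      have h2 := hq.b1
      linarith
    · have := hq.kp0
      positivity
    · exact mul_le_mul_of_nonneg_right hq.kpg hP0.le
  · intro h lam r Hh R hAux hdeg hpos κ hκ hκ8
    have hR1 : 1 ≤ R := hAux.hR
    have hq := hpar h.natDegree R κ hdeg hR1 hκ hκ8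
    have hf := hfam h.natDegree R κ hdeg hR1 hκ hκ8
    refine ⟨1, one_pos, fun c hc hc1 => ?_⟩
    obtain ⟨P1, h1⟩ := hA (par h.natDegree R κ) h.natDegree R κ c (fam h.natDegree R κ) hq hf hR1
      hκ hκ8 hc hc1
    obtain ⟨P2, h2⟩ := hM (par h.natDegree R κ) h.natDegree R κ c (fam h.natDegree R κ) hq hf hR1
      hκ hκ8 hc hc1
    obtain ⟨P3, h3⟩ := hL (par h.natDegree R κ) h.natDegree R κ c (fam h.natDegree R κ) hq hf hR1
      hκ hκ8 hc hc1
    refine ⟨max P1 (max P2 P3), fun P hP N A0 d a M x _ hm hlo hhi => ?_⟩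
    have hH : HypF (par h.natDegree R κ) h.natDegree R κ c P (fam h.natDegree R κ P) h lam r Hh N
        A0 d a M x := ⟨hAux, rfl, hdeg, hpos, hm, hlo, hhi⟩
    have g1 := h1 P ((le_max_left _ _).trans hP) h lam r Hh N A0 d a M x hH
    have g2 := h2 P ((le_max_left _ _).trans ((le_max_right _ _).trans hP)) h lam r Hh N A0 d a M
      x hH
    have g3 := h3 P ((le_max_right _ _).trans ((le_max_right _ _).trans hP)) h lam r Hh N A0 d a M
      x hH g1
    exact ⟨g1, g2, g3⟩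

end Vale.Agent.P042.H362
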