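import Vale.Agent.P042.H860.Glue
import Vale.Agent.P042.H452.PairR
import Vale.Agent.P042.H452.KerT
import Vale.Agent.P042.H945.PLawA
import Vale.Agent.P042.H883.Frame

set_option autoImplicit false

/-!
# P042, power regime: the tilts and kernels of one instance of `HLOC`
-/

namespace Vale.Agent.P042.H362

open Polynomial Finset Vale.Agent.P042.SS Vale.Agent.P042.H74 Vale.Agent.P042.H452
open Vale.Agent.P042.H739 Vale.Agent.P042.H245 Vale.Agent.P042.H359 Vale.Agent.P042.H860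
open Vale.Agent.P042.H599 (cm Law)
open Vale.Agent.P042.H386 (OutW kLu PrSt GP)
open Vale.Agent.P042.H92 (Prm PLaw PPair)
open Vale.Agent.P042.H945 (lamR m1_pf)
open Vale.Agent.P042.H883 (esN esN_le_log log_le_esN)

/-- the moduli of the sites -/
abbrev qS (I : Inst) : Si I.K0 I.C1 I.P → ℕ := fun i => i.1

/-- the reference of the sites: marginals of the state -/
noncomputable abbrev lamS (I : Inst) : ∀ i : Si I.K0 I.C1 I.P, ZMod i.1 → ℝ :=
  lamR univ (qS I) (rn (qS I)) I.mu I.N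

/-- the dyadic sizes of the sites -/
noncomputable abbrev esS (I : Inst) : Si I.K0 I.C1 I.P → ℝ := fun i => esN i.1

theorem si_prime {K0 : ℕ} {C1 P : ℝ} (i : Si K0 C1 P) : i.1.Prime := (mem_Typ.1 i.2).2.1

theorem si_gt {K0 : ℕ} {C1 P : ℝ} (i : Si K0 C1 P) : K0 < i.1 := (mem_Typ.1 i.2).2.2

/-- **the residues of the sites** -/
theorem rs_qS (I : Inst) : H438.Rs (qS I) (rn (qS I)) where
  two i := (si_prime i).two_le
  cop i j hij := (Nat.coprime_primes (si_prime i) (si_prime j)).2 fun h => hij (Subtype.ext h)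
  r_iff i n m := ZMod.natCast_eq_natCast_iff n m i.1
  card i := ZMod.card i.1

theorem lamS_eq (I : Inst) (i : Si I.K0 I.C1 I.P) {b : ℕ} (hb : b < i.1) :
    lamS I i (rn (qS I) i b) = cm I.mu 1 I.N i.1 b := by
  unfold lamS lamR
  rw [if_pos (mem_univ i)]
  exact m1_pf (rs_qS I) I.mu I.N i hb

/-- the residues of an integer and the representatives -/
theorem redZ_dvd {a : Type} {q : a → ℕ} [∀ i, NeZero (q i)] (H : H438.Rs q (rn q)) (n : ℤ)
    (i : a) : ((q i : ℕ) : ℤ) ∣ n - vR H i (redZ q n i) := by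
  have h1 : rn q i (vR H i (redZ q n i)) = redZ q n i := r_vR H i _
  unfold rn redZ at h1
  rw [← ZMod.intCast_zmod_eq_zero_iff_dvd]
  push_cast
  unfold redZ
  exact sub_eq_zero.2 h1.symm

/-- the sites of the low primes -/
def jS (I : Inst) (kap : ℝ) (hsub : Wst I.K0 kap I.P ⊆ Typ I.K0 I.C1 I.P)
    (p : {p // p ∈ Wst I.K0 kap I.P}) : Si I.K0 I.C1 I.P := ⟨p.1, hsub p.2⟩

theorem jS_lo (I : Inst) (kap : ℝ) (hsub : Wst I.K0 kap I.P ⊆ Typ I.K0 I.C1 I.P)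
    (p : {p // p ∈ Wst I.K0 kap I.P}) : lo I kap (jS I kap hsub p) := p.2

/-- a kernel on the residues as a kernel on the integers -/
def KZ (I : Inst) (K : ∀ i : Si I.K0 I.C1 I.P, ZMod i.1 → ZMod i.1 → ℝ) {kap : ℝ}
    (i : {i : Si I.K0 I.C1 I.P // lo I kap i}) (n m : ℤ) : ℝ :=
  K i.1 (redZ (qS I) n i.1) (redZ (qS I) m i.1)

/-- a kernel on the residues as a kernel on the integers, low primes -/
def KW (I : Inst) {kap : ℝ} (hsub : Wst I.K0 kap I.P ⊆ Typ I.K0 I.C1 I.P)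
    (K : ∀ i : Si I.K0 I.C1 I.P, ZMod i.1 → ZMod i.1 → ℝ)
    (p : {p // p ∈ Wst I.K0 kap I.P}) (n m : ℤ) : ℝ :=
  K (jS I kap hsub p) (redZ (qS I) n (jS I kap hsub p)) (redZ (qS I) m (jS I kap hsub p))

/-- a function on the residues as a function on the integers, low primes -/
def eW (I : Inst) {kap : ℝ} (hsub : Wst I.K0 kap I.P ⊆ Typ I.K0 I.C1 I.P)
    (e : ∀ i : Si I.K0 I.C1 I.P, ZMod i.1 → ℝ)
    (p : {p // p ∈ Wst I.K0 kap I.P}) (n : ℤ) : ℝ :=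
  e (jS I kap hsub p) (redZ (qS I) n (jS I kap hsub p))

/-- **tilts and kernels of an instance**: `HLOCat` without its last inequality (with the tilts
`eW e`, `eW e'` and the kernels `KW K`), the kernels of the other sites, and the pair of any two
laws -/
structure Tilt (I : Inst) (kap α : ℝ) (Q : Prm) (hsub : Wst I.K0 kap I.P ⊆ Typ I.K0 I.C1 I.P)
    (K : ∀ i : Si I.K0 I.C1 I.P, ZMod i.1 → ZMod i.1 → ℝ)
    (e e' w w' : ∀ i : Si I.K0 I.C1 I.P, ZMod i.1 → ℝ)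
    (s : ∀ i : Si I.K0 I.C1 I.P, ZMod i.1 → ZMod i.1 → ℝ)
    (rho ee : Si I.K0 I.C1 I.P → ℝ) (b : {p // p ∈ Wst I.K0 kap I.P} → ℝ) : Prop where
  b0 : ∀ i, 0 ≤ b i
  per : ∀ (i : {p // p ∈ Wst I.K0 kap I.P}) (n : ℤ),
    eW I hsub e i (n + (i.1 : ℕ)) = eW I hsub e i n
  per' : ∀ (i : {p // p ∈ Wst I.K0 kap I.P}) (n : ℤ),
    eW I hsub e' i (n + (i.1 : ℕ)) = eW I hsub e' i n
  sq : ∀ i : {p // p ∈ Wst I.K0 kap I.P},
    ∑ x ∈ range i.1, eW I hsub e i (x : ℤ) ^ 2 ≤ (i.1 : ℕ) * b i ^ 2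
  sq' : ∀ i : {p // p ∈ Wst I.K0 kap I.P},
    ∑ x ∈ range i.1, eW I hsub e' i (x : ℤ) ^ 2 ≤ (i.1 : ℕ) * b i ^ 2
  sum : ∑ i, (b i + b i) ≤ I.P ^ (1 - kap / 4)
  rel : ∀ (i : {p // p ∈ Wst I.K0 kap I.P}) (n m : ℤ), 1 + KW I hsub K i n m =
    (1 + eW I hsub e i n) * (1 + kN I.g i.1 (n - m)) * (1 + eW I hsub e' i m)
  out : ∀ i : Si I.K0 I.C1 I.P, lo I kap i →
    OutW (fun x => cm I.mu 1 I.N i.1 (vR (rs_qS I) i x))
      (fun x y => kN I.g i.1 ((vR (rs_qS I) i x : ℤ) - vR (rs_qS I) i y)) (K i) (e i) (e' i)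
      i.1 α
  high : ∀ i : Si I.K0 I.C1 I.P, ¬ lo I kap i → ∀ n m : ℤ,
    kN I.g i.1 (n - m) = K i (redZ (qS I) n i) (redZ (qS I) m i)
  see : ∑ i, ee i ≤ 1 / 32
  pair : ∀ nu nu' : (∀ i : Si I.K0 I.C1 I.P, ZMod i.1) → ℝ,
    PLaw Q univ (fun i => Real.log (qS I i)) (esS I) (lamS I) (H438.uw (qS I)) nu →
    PLaw Q univ (fun i => Real.log (qS I i)) (esS I) (lamS I) (H438.uw (qS I)) nu' →
    PPair Q univ (fun i => Real.log (qS I i)) (esS I) (lo I kap) (lamS I)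
      (lam2R (lo I kap) (lamS I) (qS I)) (H438.uw (qS I)) K (fun _ => 0) w w' s rho ee nu nu'

/-- **the tilts and kernels of an instance exist** -/
theorem tiltI (k : ℕ) (hk : 1 ≤ k) {α γ kap b gr : ℝ} (hα : 0 < α) (hα1 : α ≤ 1 / 48)
    (hγ : 14 * α ≤ γ) (hkap : 0 < kap) (hkap1 : kap ≤ 1 / 2) (hαk : α ≤ kap / 128)
    (hb : b ≤ α) (hgr : gr < α) :
    ∃ K0t : ℕ, ∃ P0 : ℝ, ∀ (I : Inst) (κ : ℝ) (q : FP) (Dm : ℝ) (Q : Prm)
      (hsub : Wst I.K0 kap I.P ⊆ Typ I.K0 I.C1 I.P),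
      I.k = k → Ok I κ → K0t ≤ I.K0 → P0 ≤ I.P → q.b ≤ b → q.gr ≤ gr →
      AtF (Typ I.K0 I.C1 I.P) q I.f I.N I.mu Dm → Q.γ = γ → Q.kap = kap →
      Q.p = Real.log I.P →
      ∃ (K : ∀ i : Si I.K0 I.C1 I.P, ZMod i.1 → ZMod i.1 → ℝ)
        (e e' w w' : ∀ i : Si I.K0 I.C1 I.P, ZMod i.1 → ℝ)
        (s : ∀ i : Si I.K0 I.C1 I.P, ZMod i.1 → ZMod i.1 → ℝ)
        (rho ee : Si I.K0 I.C1 I.P → ℝ) (bb : {p // p ∈ Wst I.K0 kap I.P} → ℝ),
        Tilt I kap α Q hsub K e e' w w' s rho ee bb := by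
  obtain ⟨Ka, hKa, HR⟩ := ppair_R k hk α γ hα hα1 hγ
  obtain ⟨Kb, hKb, HS⟩ := prSt_F (b := b) (gr := gr) (α := α) (c0 := 5) hb hgr (by norm_num)
  obtain ⟨P0, HT⟩ := hloc_tilts kap α hkap hkap1 hα hαk
  have hγ0 : 0 < γ := by linarith
  obtain ⟨Kc, hKc⟩ : ∃ Kc : ℕ, max (Real.exp (Real.log 2 / γ)) (Real.exp (5 * Real.log 2)) ≤ Kc :=
    exists_nat_ge _
  refine ⟨max (max ⌈Ka⌉₊ ⌈Kb⌉₊) Kc, max P0 1, fun I κ q Dm Q hsub hIk hOk hK0 hP0 hqb hqgr hAt
    hQγ hQk hQp => ?_⟩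
  have hP1 : 1 ≤ I.P := (le_max_right _ _).trans hP0
  have hPp : 0 < I.P := by linarith
  have hl2 : 0 < Real.log 2 := Real.log_pos (by norm_num)
  have ha : ∀ i : Si I.K0 I.C1 I.P, Ka ≤ i.1 := fun i => by
    have h1 : ⌈Ka⌉₊ ≤ i.1 :=
      (((le_max_left _ _).trans (le_max_left _ _)).trans hK0).trans (si_gt i).le
    exact (Nat.le_ceil Ka).trans (by exact_mod_cast h1)
  have hbK : ∀ i : Si I.K0 I.C1 I.P, Kb ≤ i.1 := fun i => by
    have h1 : ⌈Kb⌉₊ ≤ i.1 :=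
      (((le_max_right _ _).trans (le_max_left _ _)).trans hK0).trans (si_gt i).le
    exact (Nat.le_ceil Kb).trans (by exact_mod_cast h1)
  have hc : ∀ i : Si I.K0 I.C1 I.P,
      max (Real.exp (Real.log 2 / γ)) (Real.exp (5 * Real.log 2)) ≤ i.1 := fun i => by
    have h1 : Kc ≤ i.1 := ((le_max_right _ _).trans hK0).trans (si_gt i).le
    exact hKc.trans (by exact_mod_cast h1)
  have hpos : ∀ i : Si I.K0 I.C1 I.P, (0 : ℝ) < i.1 := fun i => by
    exact_mod_cast (si_prime i).pos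
  have hone : ∀ i : Si I.K0 I.C1 I.P, (1 : ℝ) ≤ i.1 := fun i => by
    exact_mod_cast (si_prime i).one_lt.le
  have hlog : ∀ i : Si I.K0 I.C1 I.P, Real.log (i.1 : ℝ) ≤ esS I i := fun i =>
    log_le_esN (si_prime i).one_lt.le
  have hlog' : ∀ i : Si I.K0 I.C1 I.P, esS I i - Real.log 2 ≤ Real.log (i.1 : ℝ) := fun i =>
    esN_le_log (si_prime i).one_lt
  have hlaw : Law I.mu 1 I.N := hAt.law
  -- the state at one site
  have hst : ∀ i : Si I.K0 I.C1 I.P, PrSt I.f I.mu 1 I.N ((i.1 : ℝ) ^ α) i.1 := by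
    intro i
    refine HS I.f I.mu 1 I.N i.1 (hbK i) (fun a => ?_) fun a ha0 h0 => ?_
    · exact (hAt.sup i.1 i.2 a).trans (Real.rpow_le_rpow_of_exponent_le (hone i) hqb)
    · obtain ⟨h1, h2⟩ := hAt.row i.1 i.2 a ha0 h0
      have h3 : (i.1 : ℝ) ^ (-gr) / 5 ≤ (i.1 : ℝ) ^ (-q.gr) / 5 :=
        div_le_div_of_nonneg_right
          (Real.rpow_le_rpow_of_exponent_le (hone i) (neg_le_neg hqgr)) (by norm_num)
      exact ⟨h3.trans h1, h3.trans h2⟩
  have hlo1 : ∀ i : Si I.K0 I.C1 I.P, lo I kap i →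
      esS I i ≤ (2 - Q.kap) * Q.p + Real.log 2 := by
    intro i hi
    have h1 : (i.1 : ℝ) ≤ I.P ^ (2 - kap) := by
      unfold lo Wst at hi
      rw [mem_filter, mem_range, Nat.lt_succ_iff] at hi
      exact (Nat.cast_le.2 hi.1).trans (Nat.floor_le (by positivity))
    have h2 := Real.log_le_log (hpos i) h1
    rw [Real.log_rpow hPp] at h2
    have h3 := hlog' i
    rw [hQk, hQp]
    linarith
  have hlo2 : ∀ i : Si I.K0 I.C1 I.P, ¬ lo I kap i → (2 - Q.kap) * Q.p < esS I i := by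
    intro i hi
    have h1 : I.P ^ (2 - kap) < (i.1 : ℝ) := by
      by_contra hcon
      apply hi
      unfold lo Wst
      rw [mem_filter, mem_range, Nat.lt_succ_iff]
      exact ⟨Nat.le_floor (not_lt.1 hcon), si_prime i, si_gt i⟩
    have h2 := Real.log_lt_log (by positivity) h1
    rw [Real.log_rpow hPp] at h2
    have h3 := hlog i
    rw [hQk, hQp]
    linarith
  obtain ⟨K, e, e', w, w', s, rho, ee, h1, h2, h3, h4⟩ :=
    HR I.f I.g I.mu 1 I.N (Si I.K0 I.C1 I.P) (fun i => ZMod i.1) (qS I) (rn (qS I)) (lo I kap)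
      (esS I) (lamS I) Q (rs_qS I) hQγ (by rw [hOk.gdeg, hIk]) hlaw
      (fun i => ⟨ha i, hOk.gpg (si_prime i) (si_gt i)⟩)
      (fun i _ => ⟨fun t => H74.kN_fer I.f (si_prime i)
        (hOk.not_dvd_q1 (si_prime i) (si_gt i)) I.z0 t, hst i⟩)
      hlog'
      (fun i => by
        have h5 := Real.log_le_log (Real.exp_pos _) ((le_max_left _ _).trans (hc i))
        rw [Real.log_exp] at h5
        have h6 := h5.trans (hlog i)
        rw [div_le_iff₀ hγ0] at h6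
        linarith)
      (fun i => by
        have h5 := Real.log_le_log (Real.exp_pos _) ((le_max_right _ _).trans (hc i))
        rw [Real.log_exp] at h5
        exact h5.trans (hlog i))
      (fun i _ b hb => lamS_eq I i hb) hlo1 hlo2
  obtain ⟨bb, t1, t2, t3, t4, t5, t6, t7⟩ :=
    HT I.P ((le_max_left _ _).trans hP0) I.K0 (Si I.K0 I.C1 I.P) (qS I) (fun i => ZMod i.1)
      (fun i => vR (rs_qS I) i) (fun n i => redZ (qS I) n i) I.g I.mu 1 I.N K e e' (jS I kap hsub)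
      (fun _ => rfl) (fun i => rs_vR (rs_qS I) i) (fun n i => redZ_dvd (rs_qS I) n i) hlaw
      (fun i => h1 _ (jS_lo I kap hsub i))
      (fun i a => (hst (jS I kap hsub i)).sup a)
  refine ⟨K, e, e', w, w', s, rho, ee, bb, ?_⟩
  exact
    { b0 := t1
      per := t2
      per' := t3
      sq := t4
      sq' := t5
      sum := t6
      rel := t7
      out := h1
      high := fun i hi n m => by
        rw [h2 i hi]
        refine H954.kN_per' I.g i.1 _ _ ?_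
        have g1 := redZ_dvd (rs_qS I) n i
        have g2 := redZ_dvd (rs_qS I) m i
        have g3 : n - m - ((vR (rs_qS I) i (redZ (qS I) n i) : ℤ) -
            vR (rs_qS I) i (redZ (qS I) m i)) =
            (n - vR (rs_qS I) i (redZ (qS I) n i)) - (m - vR (rs_qS I) i (redZ (qS I) m i)) := by
          ring
        rw [g3]
        exact dvd_sub g1 g2
      see := h3
      pair := h4 }

end Vale.Agent.P042.H362
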